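import Vale.Agent.P370.H115.Overlap
import Mathlib.Analysis.SpecialFunctions.Stirling
import Mathlib.Algebra.Order.Chebyshev

/-! Sup bound and `L¹` bound of the ring orbitals: `SupStmt`, `L1Stmt`. -/

namespace Vale.Agent.P370.H115

open MeasureTheory Set MvPolynomial
open Vale.Agent.P363.Stmt Vale.Agent.P363.R.H10 Vale.Agent.P363.B5
open scoped Nat

noncomputable section

lemma pow_exp_le (J : ℕ) (hJ : 1 ≤ J) {n r : ℝ} (hn : 0 < n) (hr : 0 ≤ r) :
    r ^ J * Real.exp (-r / n) ≤ (n * J) ^ J * Real.exp (-(J : ℝ)) := by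
  have hJ' : (0 : ℝ) < J := by exact_mod_cast hJ
  have h1 : r / (n * J) ≤ Real.exp (r / (n * J) - 1) := by
    have := Real.add_one_le_exp (r / (n * J) - 1)
    linarith
  have h2 : r ≤ (n * J) * Real.exp (r / (n * J) - 1) := by
    rw [div_le_iff₀ (by positivity)] at h1
    linarith
  calc r ^ J * Real.exp (-r / n) ≤ ((n * J) * Real.exp (r / (n * J) - 1)) ^ J * Real.exp (-r / n) := by
        gcongr
    _ = (n * J) ^ J * (Real.exp (r / (n * J) - 1) ^ J * Real.exp (-r / n)) := by ring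
    _ = (n * J) ^ J * Real.exp (-(J : ℝ)) := by
        rw [← Real.exp_nat_mul, ← Real.exp_add]
        congr 2
        field_simp
        ring

/-- **Sup bound** (sharper than `SupStmt`) -/
theorem sup_bound (n : ℕ) (a : ℝ) (x : R3) (hn : 2 ≤ n) :
    ringC n a x ^ 2 + ringS n a x ^ 2 ≤ 1 / (4 * (n : ℝ) ^ 5) := by
  obtain ⟨J, rfl⟩ : ∃ J, n = J + 1 := ⟨n - 1, by omega⟩
  have hJ : 1 ≤ J := by omega
  have hJ' : (1 : ℝ) ≤ J := by exact_mod_cast hJ
  set N : ℝ := ((J + 1 : ℕ) : ℝ) with hN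
  have hNJ : N = J + 1 := by rw [hN]; push_cast; ring
  have hN0 : 0 < N := by rw [hNJ]; linarith
  rw [ring_sq, Nat.add_sub_cancel]
  have h1 : ‖zet a x‖ ≤ ‖x‖ := norm_zet_le a x
  have h2 : (‖zet a x‖ ^ 2) ^ J * Real.exp (-‖x‖ / N) ^ 2 ≤ ((N * J) ^ J * Real.exp (-(J : ℝ))) ^ 2 := by
    calc (‖zet a x‖ ^ 2) ^ J * Real.exp (-‖x‖ / N) ^ 2 = (‖zet a x‖ ^ J * Real.exp (-‖x‖ / N)) ^ 2 := by
          ring
      _ ≤ (‖x‖ ^ J * Real.exp (-‖x‖ / N)) ^ 2 := by gcongr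
      _ ≤ _ := pow_le_pow_left₀ (by positivity) (pow_exp_le J hJ hN0 (norm_nonneg x)) 2
  have h3 : √(2 * Real.pi * J) * (J / Real.exp 1) ^ J ≤ (J ! : ℝ) := Stirling.le_factorial_stirling J
  have h4 : 2 * Real.pi * J * ((J : ℝ) ^ J * Real.exp (-(J : ℝ))) ^ 2 ≤ (J ! : ℝ) ^ 2 := by
    have e : (J : ℝ) ^ J * Real.exp (-(J : ℝ)) = (J / Real.exp 1) ^ J := by
      rw [div_pow, ← Real.exp_nat_mul, mul_one, Real.exp_neg]
      rfl
    rw [e]
    calc 2 * Real.pi * J * ((J / Real.exp 1) ^ J) ^ 2 = (√(2 * Real.pi * J) * (J / Real.exp 1) ^ J) ^ 2 := by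
          rw [mul_pow, Real.sq_sqrt (by positivity)]
      _ ≤ _ := by gcongr
  have hf : ((J + 1)! : ℝ) = N * (J ! : ℝ) := by
    rw [Nat.factorial_succ, hN]; push_cast; ring
  have hJf : (0 : ℝ) < (J ! : ℝ) := by positivity
  rw [cn_sq, hf, ← hN]
  have hpi := Real.pi_gt_three
  calc 2 / (Real.pi * (N * (J ! : ℝ)) ^ 2 * N ^ (2 * (J + 1))) * (‖zet a x‖ ^ 2) ^ J *
        Real.exp (-‖x‖ / N) ^ 2
      = 2 / (Real.pi * (N * (J ! : ℝ)) ^ 2 * N ^ (2 * (J + 1))) * ((‖zet a x‖ ^ 2) ^ J *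
        Real.exp (-‖x‖ / N) ^ 2) := by ring
    _ ≤ 2 / (Real.pi * (N * (J ! : ℝ)) ^ 2 * N ^ (2 * (J + 1))) *
        ((N * J) ^ J * Real.exp (-(J : ℝ))) ^ 2 := by gcongr
    _ = 1 / (Real.pi * Real.pi * J * N ^ 4) *
        ((2 * Real.pi * J * ((J : ℝ) ^ J * Real.exp (-(J : ℝ))) ^ 2) / (J ! : ℝ) ^ 2) := by
        have : Real.pi ≠ 0 := by positivity
        have hJ0 : (J : ℝ) ≠ 0 := by positivity
        have e9 : ((N * (J : ℝ)) ^ J * Real.exp (-(J : ℝ))) ^ 2 =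
          (N ^ 2) ^ J * ((J : ℝ) ^ J * Real.exp (-(J : ℝ))) ^ 2 := by rw [mul_pow N]; ring
        rw [e9, show 2 * (J + 1) = 2 * J + 2 by ring, pow_add, pow_mul]
        have hNJ0 : (N ^ 2) ^ J ≠ 0 := by positivity
        field_simp
    _ ≤ 1 / (Real.pi * Real.pi * J * N ^ 4) * 1 := by
        gcongr
        rw [div_le_one (by positivity)]
        exact h4
    _ ≤ 1 / (4 * N ^ 5) := by
        rw [mul_one]
        apply one_div_le_one_div_of_le (by positivity)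
        have h5 : 4 * N ≤ Real.pi * Real.pi * J := by
          rw [hNJ]
          have h9 : 9 ≤ Real.pi * Real.pi := by nlinarith
          nlinarith
        calc 4 * N ^ 5 = (4 * N) * N ^ 4 := by ring
          _ ≤ _ := by gcongr

theorem sup_stmt : SupStmt := by
  intro n a x hn
  refine (sup_bound n a x hn).trans ?_
  have h : (0 : ℝ) < (n : ℝ) ^ 5 := by
    have : 0 < n := by omega
    positivity
  apply one_div_le_one_div_of_le h
  linarith

lemma prod_bound (n : ℕ) (a b : ℝ) (x : R3) (hn : 2 ≤ n) :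
    |ringC n a x * ringC n b x| ≤ 1 / (4 * (n : ℝ) ^ 5) := by
  have h1 := sup_bound n a x hn
  have h2 := sup_bound n b x hn
  rw [abs_mul]
  have h3 : |ringC n a x| * |ringC n b x| ≤ (ringC n a x ^ 2 + ringC n b x ^ 2) / 2 := by
    nlinarith [sq_nonneg (|ringC n a x| - |ringC n b x|), sq_abs (ringC n a x), sq_abs (ringC n b x)]
  nlinarith [sq_nonneg (ringS n a x), sq_nonneg (ringS n b x)]

/-! ### the `L¹` bound -/

lemma wco_sq_add (a b : ℝ) (x : R3) :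
    wco a x ^ 2 + wco b x ^ 2 ≤ (1 + |Real.cos (a - b)|) * (x 0 ^ 2 + x 1 ^ 2) := by
  set c := Real.cos (a - b) with hc
  have id1 : (1 - c ^ 2) * (x 0 ^ 2 + x 1 ^ 2) =
      wco a x ^ 2 + wco b x ^ 2 - 2 * (wco a x * wco b x) * c := by
    rw [hc, Real.cos_sub, wco, wco]
    have h1 := Real.sin_sq_add_cos_sq a
    have h2 := Real.sin_sq_add_cos_sq b
    have e1 : Real.cos a ^ 2 = 1 - Real.sin a ^ 2 := by linarith
    have e2 : Real.cos b ^ 2 = 1 - Real.sin b ^ 2 := by linarith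
    ring_nf
    rw [e1, e2]
    ring
  have hc1 : |c| ≤ 1 := Real.abs_cos_le_one _
  rcases hc1.lt_or_eq with h | h
  · have h0 : 0 < 1 - |c| := by linarith
    have h2 : 2 * (wco a x * wco b x) * c ≤ |c| * (wco a x ^ 2 + wco b x ^ 2) := by
      have h3 : 2 * |wco a x * wco b x| ≤ wco a x ^ 2 + wco b x ^ 2 := by
        rw [abs_mul]
        nlinarith [sq_nonneg (|wco a x| - |wco b x|), sq_abs (wco a x), sq_abs (wco b x)]
      calc 2 * (wco a x * wco b x) * c ≤ |2 * (wco a x * wco b x) * c| := le_abs_self _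
        _ = (2 * |wco a x * wco b x|) * |c| := by rw [abs_mul, abs_mul]; norm_num
        _ ≤ (wco a x ^ 2 + wco b x ^ 2) * |c| := by gcongr
        _ = _ := by ring
    have h4 : (1 - |c|) * (wco a x ^ 2 + wco b x ^ 2) ≤
        (1 - |c|) * ((1 + |c|) * (x 0 ^ 2 + x 1 ^ 2)) := by
      have : (1 - |c|) * ((1 + |c|) * (x 0 ^ 2 + x 1 ^ 2)) = (1 - c ^ 2) * (x 0 ^ 2 + x 1 ^ 2) := by
        rw [← sq_abs c]; ring
      rw [this, id1]
      linarith
    exact le_of_mul_le_mul_left h4 h0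
  · rw [h]
    have k1 : ∀ t : ℝ, wco t x ^ 2 ≤ x 0 ^ 2 + x 1 ^ 2 := by
      intro t
      have := coords_sq t x
      rw [norm_sq_eq_sum] at this
      nlinarith [sq_nonneg (pco t x)]
    linarith [k1 a, k1 b]

lemma sq_z_le {w : ℝ} {a b : ℝ} (hw : (1 + |Real.cos (a - b)|) / 2 ≤ w) (x : R3) (J : ℕ) :
    ‖zet a x‖ ^ J * ‖zet b x‖ ^ J ≤ (x 2 ^ 2 + w * (x 0 ^ 2 + x 1 ^ 2)) ^ J := by
  rw [← mul_pow]
  gcongr
  have h1 : ‖zet a x‖ * ‖zet b x‖ ≤ (‖zet a x‖ ^ 2 + ‖zet b x‖ ^ 2) / 2 := by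
    nlinarith [sq_nonneg (‖zet a x‖ - ‖zet b x‖)]
  refine h1.trans ?_
  rw [zet_normSq, zet_normSq]
  have h2 := wco_sq_add a b x
  have h3 : 0 ≤ x 0 ^ 2 + x 1 ^ 2 := by positivity
  nlinarith [mul_le_mul_of_nonneg_right hw h3]

lemma bl_nonneg (l : ℕ) : 0 ≤ bl l := by unfold bl; positivity

lemma bl_sq (l : ℕ) : (2 * (l : ℝ) + 1) * bl l ^ 2 ≤ 1 := by
  induction l with
  | zero => simp [bl_zero]
  | succ l ih =>
    have h := bl_succ l
    have h0 : (0 : ℝ) < (l : ℝ) + 1 := by positivity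
    have h1 : bl (l + 1) = (l + 1 / 2) / (l + 1) * bl l := by
      field_simp
      linarith
    rw [h1, mul_pow, div_pow]
    push_cast
    have h2 : (2 * ((l : ℝ) + 1) + 1) * (((l : ℝ) + 1 / 2) ^ 2 / ((l : ℝ) + 1) ^ 2) ≤ 2 * l + 1 := by
      rw [← mul_div_assoc, div_le_iff₀ (by positivity)]
      nlinarith [sq_nonneg (l : ℝ), (Nat.cast_nonneg l : (0 : ℝ) ≤ l)]
    calc (2 * ((l : ℝ) + 1) + 1) * ((((l : ℝ) + 1 / 2) ^ 2 / ((l : ℝ) + 1) ^ 2) * bl l ^ 2) =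
        ((2 * ((l : ℝ) + 1) + 1) * (((l : ℝ) + 1 / 2) ^ 2 / ((l : ℝ) + 1) ^ 2)) * bl l ^ 2 := by ring
      _ ≤ (2 * l + 1) * bl l ^ 2 := by gcongr
      _ ≤ 1 := ih

lemma sum_bl (J : ℕ) : ∑ l ∈ Finset.range (J + 1), bl l = (2 * (J : ℝ) + 1) * bl J := by
  induction J with
  | zero => simp [bl_zero]
  | succ J ih =>
    rw [Finset.sum_range_succ, ih]
    have := bl_succ J
    push_cast
    linear_combination (-2) * this

lemma bl_anti : Antitone bl := by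
  apply antitone_nat_of_succ_le
  intro l
  have h := bl_succ l
  have h0 : (0 : ℝ) < (l : ℝ) + 1 := by positivity
  have h1 := bl_nonneg l
  by_contra hc
  push Not at hc
  nlinarith

lemma sum_bound {w κ : ℝ} (hw : 0 ≤ w) (hκ : 0 < κ) (hwk : w + κ ≤ 1) (J : ℕ) :
    ∑ k ∈ Finset.range (J + 1), w ^ k * bl (J - k) ≤ √(2 * J + 1) / ((J + 1) * κ) := by
  have hw1 : w ≤ 1 := by linarith
  have hw2 : w < 1 := by linarith
  have ha : AntivaryOn (fun k => w ^ k) (fun k => bl (J - k)) (Finset.range (J + 1) : Set ℕ) := by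
    intro i hi j hj hij
    have hij' : i ≤ j ∨ j ≤ i := le_total i j
    rcases hij' with h | h
    · exact pow_le_pow_of_le_one hw hw1 h
    · exfalso
      have : bl (J - j) ≤ bl (J - i) := bl_anti (by omega)
      exact absurd hij (not_lt.2 this)
  have h1 := ha.card_mul_sum_le_sum_mul_sum
  rw [Finset.card_range] at h1
  have h2 : ∑ k ∈ Finset.range (J + 1), w ^ k ≤ 1 / κ := by
    rw [le_div_iff₀ hκ]
    have h3 := geom_sum_mul_neg w (J + 1)
    have h4 : 0 ≤ w ^ (J + 1) := by positivity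
    have h5 : 0 ≤ ∑ k ∈ Finset.range (J + 1), w ^ k := Finset.sum_nonneg fun _ _ => by positivity
    nlinarith
  have h3 : ∑ k ∈ Finset.range (J + 1), bl (J - k) ≤ √(2 * J + 1) := by
    have hr := Finset.sum_range_reflect bl (J + 1)
    rw [Nat.add_sub_cancel] at hr
    rw [hr, sum_bl]
    apply Real.le_sqrt_of_sq_le
    have := bl_sq J
    have h0 : (0 : ℝ) ≤ 2 * (J : ℝ) + 1 := by positivity
    calc ((2 * (J : ℝ) + 1) * bl J) ^ 2 = (2 * (J : ℝ) + 1) * ((2 * (J : ℝ) + 1) * bl J ^ 2) := by ring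
      _ ≤ (2 * (J : ℝ) + 1) * 1 := by gcongr
      _ = _ := by ring
  have h4 : 0 ≤ ∑ k ∈ Finset.range (J + 1), bl (J - k) :=
    Finset.sum_nonneg fun _ _ => bl_nonneg _
  rw [le_div_iff₀ (by positivity)]
  have h5 : ((J : ℝ) + 1) * ∑ k ∈ Finset.range (J + 1), w ^ k * bl (J - k) ≤ (1 / κ) * √(2 * J + 1) := by
    push_cast at h1
    refine h1.trans ?_
    gcongr
  calc (∑ k ∈ Finset.range (J + 1), w ^ k * bl (J - k)) * ((J + 1) * κ) =
      (((J : ℝ) + 1) * ∑ k ∈ Finset.range (J + 1), w ^ k * bl (J - k)) * κ := by ring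
    _ ≤ ((1 / κ) * √(2 * J + 1)) * κ := by gcongr
    _ = _ := by field_simp

end

end Vale.Agent.P370.H115
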