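import Vale.Agent.P370.H115.Overlap

/-! Positivity of the mixed Gaussian moments of the null forms `zp a` and the bound of the fourfold
moments by the moments of the sum (multinomial theorem). -/

namespace Vale.Agent.P370.H115

open MeasureTheory Set MvPolynomial
open Vale.Agent.P363.Stmt Vale.Agent.P363.R.H10 Vale.Agent.P363.B5
open scoped Nat

noncomputable section

/-- nonnegative real -/
def NN (z : ℂ) : Prop := 0 ≤ z.re ∧ z.im = 0

lemma NN.add {z w : ℂ} (hz : NN z) (hw : NN w) : NN (z + w) :=
  ⟨by rw [Complex.add_re]; exact add_nonneg hz.1 hw.1, by rw [Complex.add_im, hz.2, hw.2, add_zero]⟩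

lemma NN.real_mul {z : ℂ} (hz : NN z) {r : ℝ} (hr : 0 ≤ r) : NN ((r : ℂ) * z) :=
  ⟨by rw [Complex.re_ofReal_mul]; exact mul_nonneg hr hz.1, by
    rw [Complex.im_ofReal_mul, hz.2, mul_zero]⟩

lemma NN.zero : NN 0 := ⟨le_refl _, rfl⟩

/-- product of null forms -/
def lp (L : List ℝ) : Pol := (L.map zp).prod

@[simp] lemma lp_nil : lp [] = 1 := rfl
@[simp] lemma lp_cons (a : ℝ) (L : List ℝ) : lp (a :: L) = zp a * lp L := by simp [lp]
lemma lp_append (L M : List ℝ) : lp (L ++ M) = lp L * lp M := by simp [lp]

lemma lp_replicate (k : ℕ) (a : ℝ) : lp (List.replicate k a) = zp a ^ k := by simp [lp]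

lemma NN_gL_lp (n : ℕ) : ∀ L : List ℝ, L.length = n → NN (gL (lp L)) := by
  induction n using Nat.strong_induction_on with
  | _ n ih =>
    intro L hL
    have H : ∀ N : List ℝ, N.length < n → NN (gL (lp N)) := fun N hN => ih _ hN N rfl
    cases L with
    | nil =>
      rw [lp_nil, gL_one]
      exact ⟨by rw [Complex.ofReal_re]; positivity, Complex.ofReal_im _⟩
    | cons a L =>
      rw [lp_cons, gL_zp_mul]
      have hlen : L.length + 1 = n := by simpa using hL
      have key : ∀ L M : List ℝ, L.length + M.length < n → NN (gL (Da a (lp L) * lp M)) := by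
        intro L
        induction L with
        | nil =>
          intro M _
          rw [lp_nil, map_one_eq_zero, zero_mul]
          have : gL 0 = 0 := by simp [gL]
          rw [this]
          exact NN.zero
        | cons b L ihL =>
          intro M hM
          simp only [List.length_cons] at hM
          have e : Da a (lp (b :: L)) * lp M = Da a (lp L) * lp (b :: M) +
              C (((1 - Real.cos (a - b) : ℝ) : ℂ)) * lp (L ++ M) := by
            rw [lp_cons, lp_cons, lp_append, Derivation.leibniz, Da_zp, smul_eq_mul, smul_eq_mul]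
            ring
          rw [e, gL_add, gL_C_mul]
          refine (ihL (b :: M) (by simp only [List.length_cons]; omega)).add ?_
          refine (H (L ++ M) (by simp only [List.length_append]; omega)).real_mul ?_
          have := Real.cos_le_one (a - b)
          linarith
      have h2 := key L [] (by simp only [List.length_nil]; omega)
      rw [lp_nil, mul_one] at h2
      have h3 : (1 / 2 : ℂ) = ((1 / 2 : ℝ) : ℂ) := by push_cast; ring
      rw [h3]
      exact h2.real_mul (by norm_num)
where
  map_one_eq_zero {a : ℝ} : Da a 1 = 0 := Derivation.map_one_eq_zero _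

/-- nonnegative combinations of products of null forms -/
inductive Cone : Pol → Prop
  | zero : Cone 0
  | add {F G : Pol} : Cone F → Cone G → Cone (F + G)
  | base {r : ℝ} (L : List ℝ) : 0 ≤ r → Cone (C (r : ℂ) * lp L)

lemma Cone.gL {F : Pol} (h : Cone F) : NN (gL F) := by
  induction h with
  | zero => have : H115.gL 0 = 0 := by simp [H115.gL]
            rw [this]; exact NN.zero
  | add _ _ h1 h2 => rw [gL_add]; exact h1.add h2
  | base L hr => rw [gL_C_mul]; exact (NN_gL_lp _ L rfl).real_mul hr

lemma Cone.mul {F G : Pol} (hF : Cone F) (hG : Cone G) : Cone (F * G) := by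
  induction hF with
  | zero => rw [zero_mul]; exact Cone.zero
  | add _ _ h1 h2 => rw [add_mul]; exact h1.add h2
  | @base r L hr =>
    induction hG with
    | zero => rw [mul_zero]; exact Cone.zero
    | add _ _ h1 h2 => rw [mul_add]; exact h1.add h2
    | @base r' L' hr' =>
      have e : C (r : ℂ) * lp L * (C (r' : ℂ) * lp L') = C ((r * r' : ℝ) : ℂ) * lp (L ++ L') := by
        rw [lp_append, Complex.ofReal_mul, map_mul]
        ring
      rw [e]
      exact Cone.base _ (mul_nonneg hr hr')

lemma Cone.one : Cone 1 := by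
  have := Cone.base (r := 1) [] zero_le_one
  simpa using this

lemma Cone.zp (a : ℝ) : Cone (zp a) := by
  have := Cone.base (r := 1) [a] zero_le_one
  simpa using this

lemma Cone.pow {F : Pol} (h : Cone F) (k : ℕ) : Cone (F ^ k) := by
  induction k with
  | zero => rw [pow_zero]; exact Cone.one
  | succ k ih => rw [pow_succ]; exact ih.mul h

lemma Cone.natCast (k : ℕ) : Cone (k : Pol) := by
  have := Cone.base (r := (k : ℝ)) [] (by positivity)
  simpa using this

lemma Cone.sum {ι : Type*} (s : Finset ι) {f : ι → Pol} (h : ∀ i ∈ s, Cone (f i)) :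
    Cone (∑ i ∈ s, f i) := by
  classical
  induction s using Finset.induction_on with
  | empty => rw [Finset.sum_empty]; exact Cone.zero
  | insert a s ha ih =>
    rw [Finset.sum_insert ha]
    exact (h a (Finset.mem_insert_self _ _)).add (ih fun i hi => h i (Finset.mem_insert_of_mem hi))

lemma cone_binom {x y : Pol} (hx : Cone x) (hy : Cone y) {n k : ℕ} (hk : k ≤ n) :
    ∃ R, Cone R ∧ (x + y) ^ n = x ^ k * y ^ (n - k) * (n.choose k : Pol) + R := by
  classical
  refine ⟨∑ i ∈ (Finset.range (n + 1)).erase k, x ^ i * y ^ (n - i) * (n.choose i : Pol),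
    Cone.sum _ fun i _ => ((hx.pow i).mul (hy.pow _)).mul (Cone.natCast _), ?_⟩
  rw [add_pow]
  exact (Finset.add_sum_erase _ (fun i => x ^ i * y ^ (n - i) * (n.choose i : Pol))
    (Finset.mem_range.2 (by omega))).symm

/-- multinomial lower bound -/
lemma cone_four {a b c d : Pol} (ha : Cone a) (hb : Cone b) (hc : Cone c) (hd : Cone d) (J : ℕ) :
    ∃ R, Cone R ∧ ((a + b) + (c + d)) ^ (4 * J) =
      (((4 * J).choose (2 * J) * (2 * J).choose J ^ 2 : ℕ) : Pol) * (a ^ J * b ^ J * c ^ J * d ^ J) + R := by
  obtain ⟨R1, h1, e1⟩ := cone_binom (ha.add hb) (hc.add hd) (n := 4 * J) (k := 2 * J) (by omega)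
  obtain ⟨R2, h2, e2⟩ := cone_binom ha hb (n := 2 * J) (k := J) (by omega)
  obtain ⟨R3, h3, e3⟩ := cone_binom hc hd (n := 2 * J) (k := J) (by omega)
  rw [show 4 * J - 2 * J = 2 * J by omega, e2, e3] at e1
  rw [show 2 * J - J = J by omega] at e1
  refine ⟨((4 * J).choose (2 * J) : Pol) * (a ^ J * b ^ J * ((2 * J).choose J : Pol) * R3 +
    R2 * (c ^ J * d ^ J * ((2 * J).choose J : Pol) + R3)) + R1, ?_, ?_⟩
  · refine Cone.add ((Cone.natCast _).mul (Cone.add ?_ ?_)) h1
    · exact (((ha.pow J).mul (hb.pow J)).mul (Cone.natCast _)).mul h3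
    · exact h2.mul ((((hc.pow J).mul (hd.pow J)).mul (Cone.natCast _)).add h3)
  · rw [e1]
    push_cast
    ring

/-- the derivation along the sum of four null vectors -/
lemma gL_sum_pow (a b c d : ℝ) {V : ℝ}
    (hV : V = 16 - ((Real.cos a + Real.cos b + Real.cos c + Real.cos d) ^ 2 +
      (Real.sin a + Real.sin b + Real.sin c + Real.sin d) ^ 2)) (N : ℕ) :
    gL (((zp a + zp b) + (zp c + zp d)) ^ (2 * N)) =
      ((Real.pi ^ (3 / 2 : ℝ) * (((2 * N)! : ℝ) / (N ! : ℝ)) * (V / 4) ^ N : ℝ) : ℂ) := by
  set v : Pol := (zp a + zp b) + (zp c + zp d) with hv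
  set D : Derivation ℂ Pol Pol := (Da a + Da b) + (Da c + Da d) with hD
  have step : ∀ F : Pol, gL (v * F) = (1 / 2) * gL (D F) := by
    intro F
    have e1 : v * F = (zp a * F + zp b * F) + (zp c * F + zp d * F) := by rw [hv]; ring
    have e2 : D F = (Da a F + Da b F) + (Da c F + Da d F) := by
      simp only [hD, Derivation.add_apply]
    rw [e1, e2, gL_add, gL_add, gL_add, gL_add, gL_add, gL_add, gL_zp_mul, gL_zp_mul, gL_zp_mul,
      gL_zp_mul]
    ring
  have hDv : D v = C (V : ℂ) := by
    simp only [hD, hv, Derivation.add_apply, map_add, Da_zp]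
    simp only [← map_add]
    congr 1
    simp only [← Complex.ofReal_add]
    congr 1
    rw [hV]
    have ha := Real.sin_sq_add_cos_sq a
    have hb := Real.sin_sq_add_cos_sq b
    have hc := Real.sin_sq_add_cos_sq c
    have hd := Real.sin_sq_add_cos_sq d
    simp only [Real.cos_sub]
    ring
  induction N with
  | zero => simp [gL_one]
  | succ N ih =>
    have e1 : v ^ (2 * (N + 1)) = v * v ^ (2 * N + 1) := by ring
    rw [e1, step, Derivation.leibniz_pow, hDv, Nat.add_sub_cancel]
    have e2 : (2 * N + 1) • v ^ (2 * N) • (C (V : ℂ) : Pol) =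
        C (((2 * N + 1 : ℕ) : ℂ) * (V : ℂ)) * v ^ (2 * N) := by
      have h2 : (C (2 : ℂ) : Pol) = 2 := map_ofNat C 2
      rw [nsmul_eq_mul, smul_eq_mul, map_mul]
      simp [h2]
      ring
    rw [e2, gL_C_mul, ih, ← Complex.ofReal_natCast, ← Complex.ofReal_mul, ← Complex.ofReal_mul]
    have h3 : (1 / 2 : ℂ) = ((1 / 2 : ℝ) : ℂ) := by push_cast; ring
    rw [h3, ← Complex.ofReal_mul]
    congr 1
    rw [show 2 * (N + 1) = 2 * N + 1 + 1 by ring, Nat.factorial_succ, Nat.factorial_succ (2 * N),
      Nat.factorial_succ N]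
    have hN : (N ! : ℝ) ≠ 0 := by positivity
    have hN1 : ((N : ℝ) + 1) ≠ 0 := by positivity
    push_cast
    field_simp
    ring

end

end Vale.Agent.P370.H115
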