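import Vale.Agent.P370.H115.RingDefs
import Vale.Agent.P363.R.B5.Polar

/-! The Gaussian functional `L P = ∫ P(x) e^{-|x|²} dx` on complex polynomials in three variables,
`L (X_i P) = (1/2) L (∂_i P)`, and the homogeneity lemma. -/

namespace Vale.Agent.P370.H115

open MeasureTheory Set MvPolynomial
open Vale.Agent.P363.Stmt Vale.Agent.P363.R.H10 Vale.Agent.P363.B5
open scoped Nat

noncomputable section

abbrev Pol : Type := MvPolynomial (Fin 3) ℂ

/-- evaluation at a point of `R3` -/
def evx (x : R3) (P : Pol) : ℂ := MvPolynomial.eval (fun i => ((x i : ℝ) : ℂ)) P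

@[simp] lemma evx_C (x : R3) (c : ℂ) : evx x (C c) = c := by simp [evx]
@[simp] lemma evx_one (x : R3) : evx x 1 = 1 := by simp [evx]
@[simp] lemma evx_X (x : R3) (i : Fin 3) : evx x (X i) = (x i : ℝ) := by simp [evx]
@[simp] lemma evx_add (x : R3) (P Q : Pol) : evx x (P + Q) = evx x P + evx x Q := by simp [evx]
@[simp] lemma evx_mul (x : R3) (P Q : Pol) : evx x (P * Q) = evx x P * evx x Q := by simp [evx]
@[simp] lemma evx_sub (x : R3) (P Q : Pol) : evx x (P - Q) = evx x P - evx x Q := by simp [evx]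
@[simp] lemma evx_neg (x : R3) (P : Pol) : evx x (-P) = -evx x P := by simp [evx]
@[simp] lemma evx_zero (x : R3) : evx x 0 = 0 := by simp [evx]
@[simp] lemma evx_pow (x : R3) (P : Pol) (k : ℕ) : evx x (P ^ k) = evx x P ^ k := by simp [evx]

lemma continuous_evx (P : Pol) : Continuous fun x : R3 => evx x P := by
  induction P using MvPolynomial.induction_on with
  | C a => simpa using continuous_const
  | add p q hp hq => simp only [evx_add]; exact hp.add hq
  | mul_X p i hp =>
    simp only [evx_mul, evx_X]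
    exact hp.mul (by fun_prop)

lemma evx_bound (P : Pol) : ∃ C : ℝ, 0 ≤ C ∧ ∃ d : ℕ, ∀ x : R3, ‖evx x P‖ ≤ C * (1 + ‖x‖) ^ d := by
  induction P using MvPolynomial.induction_on with
  | C a => exact ⟨‖a‖, norm_nonneg _, 0, fun x => by simp⟩
  | add p q hp hq =>
    obtain ⟨C1, h1, d1, b1⟩ := hp
    obtain ⟨C2, h2, d2, b2⟩ := hq
    refine ⟨C1 + C2, by positivity, d1 + d2, fun x => ?_⟩
    have hx : (1 : ℝ) ≤ 1 + ‖x‖ := by linarith [norm_nonneg x]
    rw [evx_add]
    calc ‖evx x p + evx x q‖ ≤ ‖evx x p‖ + ‖evx x q‖ := norm_add_le _ _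
      _ ≤ C1 * (1 + ‖x‖) ^ d1 + C2 * (1 + ‖x‖) ^ d2 := add_le_add (b1 x) (b2 x)
      _ ≤ C1 * (1 + ‖x‖) ^ (d1 + d2) + C2 * (1 + ‖x‖) ^ (d1 + d2) := by
          gcongr <;> first | exact hx | omega
      _ = _ := by ring
  | mul_X p i hp =>
    obtain ⟨C1, h1, d1, b1⟩ := hp
    refine ⟨C1, h1, d1 + 1, fun x => ?_⟩
    rw [evx_mul, evx_X, norm_mul, Complex.norm_real, Real.norm_eq_abs, pow_succ, ← mul_assoc]
    have h2 : |x i| ≤ 1 + ‖x‖ := (abs_coord_le x i).trans (by linarith)
    exact mul_le_mul (b1 x) h2 (abs_nonneg _) (by positivity)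

/-- the Gaussian weight -/
def gw (x : R3) : ℝ := Real.exp (-‖x‖ ^ 2)

lemma gw_eq (x : R3) : gw x = Real.exp (-(1 : ℝ) * ‖x‖ ^ 2) := by simp [gw]

lemma continuous_gw : Continuous gw := by unfold gw; fun_prop

lemma integrable_gauss {b : ℝ} (hb : 0 < b) : Integrable fun x : R3 => Real.exp (-b * ‖x‖ ^ 2) := by
  have h := GaussianFourier.integrable_cexp_neg_mul_sq_norm_add (V := R3) (b := (b : ℂ))
    (by simpa using hb) 0 0
  have h2 := h.norm
  refine h2.congr (ae_of_all _ fun x => ?_)
  simp only [Complex.norm_exp]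
  congr 1
  norm_cast
  simp

lemma integrable_pow_gw (d : ℕ) : Integrable fun x : R3 => (1 + ‖x‖) ^ d * gw x := by
  refine ((integrable_gauss (b := 1 / 2) (by norm_num)).const_mul
    ((d ! : ℝ) * Real.exp (3 / 2))).mono'
    (Continuous.aestronglyMeasurable (by have := continuous_gw; fun_prop)) (ae_of_all _ fun x => ?_)
  have h0 : (0 : ℝ) ≤ 1 + ‖x‖ := by positivity
  have h1 := Real.pow_div_factorial_le_exp (1 + ‖x‖) h0 d
  have h2 : (1 + ‖x‖) ^ d ≤ (d ! : ℝ) * Real.exp (1 + ‖x‖) := by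
    rw [div_le_iff₀ (by positivity)] at h1
    linarith
  have hg : 0 < gw x := Real.exp_pos _
  rw [Real.norm_of_nonneg (by positivity)]
  calc (1 + ‖x‖) ^ d * gw x ≤ ((d ! : ℝ) * Real.exp (1 + ‖x‖)) * gw x := by gcongr
    _ = (d ! : ℝ) * Real.exp (1 + ‖x‖ - ‖x‖ ^ 2) := by
        rw [gw, mul_assoc, ← Real.exp_add]; ring_nf
    _ ≤ (d ! : ℝ) * Real.exp (3 / 2 + -(1 / 2) * ‖x‖ ^ 2) := by
        gcongr
        nlinarith [sq_nonneg (‖x‖ - 1)]
    _ = _ := by rw [Real.exp_add]; ring

lemma integrable_evx (P : Pol) : Integrable fun x : R3 => evx x P * (gw x : ℂ) := by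
  obtain ⟨C, hC, d, hb⟩ := evx_bound P
  refine ((integrable_pow_gw d).const_mul C).mono'
    (Continuous.aestronglyMeasurable ?_) (ae_of_all _ fun x => ?_)
  · exact (continuous_evx P).mul (Complex.continuous_ofReal.comp continuous_gw)
  · have hg : 0 < gw x := Real.exp_pos _
    rw [norm_mul, Complex.norm_real, Real.norm_of_nonneg hg.le, ← mul_assoc]
    exact mul_le_mul_of_nonneg_right (hb x) hg.le

/-- the Gaussian functional -/
def gL (P : Pol) : ℂ := ∫ x : R3, evx x P * (gw x : ℂ)

lemma gL_add (P Q : Pol) : gL (P + Q) = gL P + gL Q := by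
  simp only [gL, evx_add, add_mul]
  exact integral_add (integrable_evx P) (integrable_evx Q)

lemma gL_C_mul (c : ℂ) (P : Pol) : gL (C c * P) = c * gL P := by
  simp only [gL, evx_mul, evx_C, mul_assoc]
  exact integral_const_mul _ _

lemma gL_sum {ι : Type*} (s : Finset ι) (f : ι → Pol) : gL (∑ i ∈ s, f i) = ∑ i ∈ s, gL (f i) := by
  classical
  induction s using Finset.induction_on with
  | empty => simp [gL]
  | insert a s ha ih => rw [Finset.sum_insert ha, Finset.sum_insert ha, gL_add, ih]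

lemma gL_one : gL 1 = ((Real.pi ^ (3 / 2 : ℝ) : ℝ) : ℂ) := by
  simp only [gL, evx_one, one_mul]
  rw [integral_complex_ofReal]
  congr 1
  have h := GaussianFourier.integral_rexp_neg_mul_sq_norm (V := R3) (b := 1) one_pos
  rw [finrank_R3] at h
  simp only [gw_eq]
  rw [h]
  norm_num

lemma hasLineDerivAt_evx (P : Pol) (x : R3) (i : Fin 3) :
    HasLineDerivAt ℝ (fun y : R3 => evx y P) (evx x (pderiv i P)) x (ei i) := by
  induction P using MvPolynomial.induction_on with
  | C a => simpa [HasLineDerivAt] using hasDerivAt_const (0 : ℝ) a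
  | add p q hp hq =>
    simp only [map_add, evx_add]
    exact HasDerivAt.add hp hq
  | mul_X p j hp =>
    have hj : HasLineDerivAt ℝ (fun y : R3 => evx y (X j : Pol)) (evx x (pderiv i (X j : Pol))) x
        (ei i) := by
      have h := hasLineDerivAt_coord x i j
      have h2 := HasDerivAt.ofReal_comp h
      have h3 : ((if i = j then (1 : ℝ) else 0 : ℝ) : ℂ) = evx x (pderiv i (X j : Pol)) := by
        rw [pderiv_X]
        by_cases hij : i = j
        · subst hij; simp
        · simp [hij, Pi.single_apply, Ne.symm hij]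
      rw [← h3]
      simp only [HasLineDerivAt, evx_X]
      exact h2
    have h3 : HasDerivAt (fun t : ℝ => evx (x + t • ei i) p * evx (x + t • ei i) (X j))
        (evx x (pderiv i p) * evx (x + (0 : ℝ) • ei i) (X j) +
          evx (x + (0 : ℝ) • ei i) p * evx x (pderiv i (X j))) 0 := HasDerivAt.mul hp hj
    simp only [HasLineDerivAt]
    have h4 : (fun t : ℝ => evx (x + t • ei i) (p * X j)) =
        fun t : ℝ => evx (x + t • ei i) p * evx (x + t • ei i) (X j) := by
      funext t; rw [evx_mul]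
    rw [h4]
    refine h3.congr_deriv ?_
    rw [Derivation.leibniz]
    simp only [smul_eq_mul, evx_add, evx_mul, zero_smul, add_zero]
    ring

lemma hasLineDerivAt_gw (x : R3) (i : Fin 3) :
    HasLineDerivAt ℝ (fun y : R3 => (gw y : ℂ)) (-2 * (x i : ℝ) * (gw x : ℂ)) x (ei i) := by
  have h := hasLineDerivAt_normsq 0 x i
  have h1 : HasDerivAt (fun t : ℝ => gw (x + t • ei i)) (-2 * x i * gw x) 0 := by
    have h2 : HasDerivAt (fun t : ℝ => -‖x + t • ei i‖ ^ 2) (-(2 * x i)) 0 := by
      have h5 := HasDerivAt.neg h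
      have h6 : (-fun t : ℝ => ‖x + t • ei i - 0‖ ^ 2) = fun t : ℝ => -‖x + t • ei i‖ ^ 2 := by
        funext t; simp
      rw [h6] at h5
      refine h5.congr_deriv ?_
      simp
    refine h2.exp.congr_deriv ?_
    simp [gw]
    ring
  have h4 := HasDerivAt.ofReal_comp h1
  simp only [HasLineDerivAt]
  refine h4.congr_deriv ?_
  push_cast
  rfl

/-- integration by parts -/
theorem gL_X_mul (i : Fin 3) (P : Pol) : gL (X i * P) = (1 / 2) * gL (pderiv i P) := by
  have h := integral_bilinear_hasLineDerivAt_right_eq_neg_left_of_integrable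
    (μ := (volume : Measure R3)) (B := ContinuousLinearMap.mul ℝ ℂ)
    (f := fun x : R3 => evx x P) (f' := fun x : R3 => evx x (pderiv i P))
    (g := fun x : R3 => (gw x : ℂ)) (g' := fun x : R3 => -2 * (x i : ℝ) * (gw x : ℂ))
    (v := ei i) (integrable_evx _) ?_ (integrable_evx _)
    (fun x _ => hasLineDerivAt_evx P x i) (fun x _ => hasLineDerivAt_gw x i)
  · simp only [ContinuousLinearMap.mul_apply'] at h
    have e1 : (fun x : R3 => evx x P * (-2 * (x i : ℝ) * (gw x : ℂ))) =
        fun x : R3 => (-2 : ℂ) * (evx x (X i * P) * (gw x : ℂ)) := by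
      funext x; simp; ring
    rw [e1, integral_const_mul] at h
    simp only [gL]
    linear_combination (-1 / 2 : ℂ) * h
  · have := (integrable_evx (X i * P)).const_mul (-2 : ℂ)
    refine this.congr (ae_of_all _ fun x => ?_)
    simp
    ring

end

end Vale.Agent.P370.H115
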