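import Vale.Agent.P370.H115.Wick
import Mathlib.Analysis.SpecialFunctions.Gamma.Beta

/-! Homogeneous functions against radial weights; the exact normalisation of the ring orbitals. -/

namespace Vale.Agent.P370.H115

open MeasureTheory Set MvPolynomial
open Vale.Agent.P363.Stmt Vale.Agent.P363.R.H10 Vale.Agent.P363.B5
open scoped Nat

noncomputable section

/-- polar coordinates, vector valued -/
theorem integral_polE {E : Type*} [NormedAddCommGroup E] [NormedSpace ℝ E] (f : R3 → E) :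
    ∫ x, f x = ∫ p, f (pol p) ∂(sig.prod rad) := by
  rw [← mp_hom.integral_comp (homeomorphUnitSphereProd R3).measurableEmbedding]
  simp only [pol_hom]
  rw [integral_subtype_comap (measurableSet_singleton _).compl, restrict_compl_singleton]

/-- a homogeneous function against a radial weight -/
theorem hom_integral {P : R3 → ℂ} {d : ℕ} (hP : ∀ (t : ℝ) (x : R3), 0 < t → P (t • x) = (t : ℂ) ^ d * P x)
    (g : ℝ → ℝ) : ∫ x, P x * (g ‖x‖ : ℂ) =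
      (∫ u : S2, P (u : R3) ∂sig) * ((∫ r in Ioi (0 : ℝ), r ^ (d + 2) * g r : ℝ) : ℂ) := by
  rw [integral_polE]
  have e1 : ∀ p : S2 × Ioi (0 : ℝ), P (pol p) * (g ‖pol p‖ : ℂ) =
      P (p.1 : R3) * (((p.2 : ℝ) ^ d * g p.2 : ℝ) : ℂ) := by
    intro p
    have h1 : 0 < (p.2 : ℝ) := p.2.2
    have h2 : ‖(p.1 : R3)‖ = 1 := by simpa using p.1.2
    rw [pol, hP _ _ h1, norm_smul, h2, mul_one, Real.norm_of_nonneg h1.le]
    push_cast
    ring
  simp_rw [e1]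
  rw [integral_prod_mul (fun u : S2 => P (u : R3)) (fun r : Ioi (0 : ℝ) => (((r : ℝ) ^ d * g r : ℝ) : ℂ))]
  congr 1
  rw [integral_complex_ofReal]
  congr 1
  rw [integral_rad (fun r => r ^ d * g r)]
  refine integral_congr_ae (ae_of_all _ fun r => ?_)
  simp only
  ring

lemma integral_pow_exp {k : ℕ} {c : ℝ} (hc : 0 < c) :
    ∫ r in Ioi (0 : ℝ), r ^ k * Real.exp (-(c * r)) = (k ! : ℝ) / c ^ (k + 1) := by
  have h := Real.integral_rpow_mul_exp_neg_mul_Ioi (a := k + 1) (r := c) (by positivity) hc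
  rw [Real.Gamma_nat_eq_factorial] at h
  have e1 : ∀ r : ℝ, r ^ ((k : ℝ) + 1 - 1) = r ^ k := by
    intro r
    rw [add_sub_cancel_right, Real.rpow_natCast]
  simp_rw [e1] at h
  rw [h]
  have e2 : (1 / c) ^ ((k : ℝ) + 1) = 1 / c ^ (k + 1) := by
    rw [show ((k : ℝ) + 1) = ((k + 1 : ℕ) : ℝ) by push_cast; ring, Real.rpow_natCast]
    simp
  rw [e2]
  ring

lemma gamma_half (n : ℕ) : Real.Gamma (n + 1 / 2) = ((2 * n)! : ℝ) * √Real.pi / (4 ^ n * (n ! : ℝ)) := by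
  have h := Real.Gamma_mul_Gamma_add_half (n + 1 / 2)
  have e1 : (n : ℝ) + 1 / 2 + 1 / 2 = n + 1 := by ring
  have e2 : 2 * ((n : ℝ) + 1 / 2) = ((2 * n : ℕ) : ℝ) + 1 := by push_cast; ring
  rw [e1, Real.Gamma_nat_eq_factorial, e2, Real.Gamma_nat_eq_factorial] at h
  have e3 : (2 : ℝ) ^ (1 - (((2 * n : ℕ) : ℝ) + 1)) = 1 / 4 ^ n := by
    rw [show 1 - (((2 * n : ℕ) : ℝ) + 1) = -((2 * n : ℕ) : ℝ) by ring, Real.rpow_neg (by norm_num),
      Real.rpow_natCast, pow_mul]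
    norm_num
  rw [e3] at h
  have hn : (n ! : ℝ) ≠ 0 := by positivity
  rw [eq_div_iff (by positivity)]
  calc Real.Gamma (n + 1 / 2) * (4 ^ n * (n ! : ℝ)) = Real.Gamma (n + 1 / 2) * (n ! : ℝ) * 4 ^ n := by ring
    _ = ((2 * n)! : ℝ) * (1 / 4 ^ n) * √Real.pi * 4 ^ n := by rw [h]
    _ = _ := by field_simp

lemma integral_pow_gauss (n : ℕ) :
    ∫ r in Ioi (0 : ℝ), r ^ (2 * n) * Real.exp (-r ^ 2) =
      ((2 * n)! : ℝ) * √Real.pi / (4 ^ n * (n ! : ℝ)) / 2 := by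
  have h := integral_rpow_mul_exp_neg_rpow (p := 2) (q := ((2 * n : ℕ) : ℝ)) (by norm_num)
    (by have : (0 : ℝ) ≤ ((2 * n : ℕ) : ℝ) := by positivity
        linarith)
  simp only [Real.rpow_natCast, Real.rpow_two] at h
  rw [h, show (((2 * n : ℕ) : ℝ) + 1) / 2 = n + 1 / 2 by push_cast; ring, gamma_half]
  ring

lemma cn_sq (n : ℕ) : cn n ^ 2 = 2 / (Real.pi * (n ! : ℝ) ^ 2 * (n : ℝ) ^ (2 * n)) := by
  rw [cn, div_pow, Real.sq_sqrt (by positivity)]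
  rw [show ((n ! : ℝ) * (n : ℝ) ^ n) ^ 2 = (n ! : ℝ) ^ 2 * (n : ℝ) ^ (2 * n) by ring, div_div]
  ring

lemma pi32 : Real.pi ^ (3 / 2 : ℝ) = Real.pi * √Real.pi := by
  rw [show (3 / 2 : ℝ) = 1 + 1 / 2 by norm_num, Real.rpow_add Real.pi_pos, Real.rpow_one,
    Real.sqrt_eq_rpow]

/-- the weight `e^{-2r/n}` of the products of two orbitals -/
def ew (n : ℕ) (x : R3) : ℝ := Real.exp (-(2 / n * ‖x‖))

/-- **Normalisation lemma**: the integral of a homogeneous function of degree `2 (n-1)` against the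
orbital weight, through the Gaussian one. -/
theorem norm_integral {n : ℕ} (hn : 1 ≤ n) {P : R3 → ℂ}
    (hP : ∀ (t : ℝ) (x : R3), 0 < t → P (t • x) = (t : ℂ) ^ (2 * (n - 1)) * P x) :
    ((cn n ^ 2 : ℝ) : ℂ) * ∫ x, P x * (ew n x : ℂ) =
      ((2 / (Real.pi ^ (3 / 2 : ℝ) * ((n - 1)! : ℝ)) : ℝ) : ℂ) * ∫ x, P x * (gw x : ℂ) := by
  have h1 := hom_integral hP (fun r => Real.exp (-(2 / n * r)))
  have h2 := hom_integral hP (fun r => Real.exp (-r ^ 2))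
  simp only [ew, gw]
  rw [h1, h2]
  obtain ⟨J, rfl⟩ : ∃ J, n = J + 1 := ⟨n - 1, by omega⟩
  rw [Nat.add_sub_cancel, show 2 * J + 2 = 2 * (J + 1) by ring]
  have hc : (0 : ℝ) < 2 / ((J + 1 : ℕ) : ℝ) := by positivity
  rw [integral_pow_exp hc, integral_pow_gauss]
  have key : cn (J + 1) ^ 2 * (((2 * (J + 1))! : ℝ) / (2 / ((J + 1 : ℕ) : ℝ)) ^ (2 * (J + 1) + 1)) =
      (2 / (Real.pi ^ (3 / 2 : ℝ) * (J ! : ℝ))) *
        (((2 * (J + 1))! : ℝ) * √Real.pi / (4 ^ (J + 1) * ((J + 1)! : ℝ)) / 2) := by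
    rw [cn_sq, pi32]
    have hJ : ((J + 1)! : ℝ) = ((J + 1 : ℕ) : ℝ) * (J ! : ℝ) := by
      rw [Nat.factorial_succ]; push_cast; ring
    have hs : √Real.pi ≠ 0 := by positivity
    have hJ1 : ((J + 1 : ℕ) : ℝ) ≠ 0 := by positivity
    have hJ0 : (J ! : ℝ) ≠ 0 := by positivity
    have hp : Real.pi ≠ 0 := Real.pi_ne_zero
    rw [hJ, div_pow, show (4 : ℝ) ^ (J + 1) = 2 ^ (2 * (J + 1)) by rw [pow_mul]; norm_num]
    set N : ℝ := ((J + 1 : ℕ) : ℝ)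
    set F : ℝ := ((2 * (J + 1))! : ℝ)
    rw [show 2 * (J + 1) + 1 = 2 * J + 3 by ring, show 2 * (J + 1) = 2 * J + 2 by ring]
    field_simp
    ring
  calc _ = (∫ u : S2, P (u : R3) ∂sig) * ((cn (J + 1) ^ 2 *
        (((2 * (J + 1))! : ℝ) / (2 / ((J + 1 : ℕ) : ℝ)) ^ (2 * (J + 1) + 1)) : ℝ) : ℂ) := by
        push_cast; ring
    _ = _ := by rw [key]; push_cast; ring

end

end Vale.Agent.P370.H115
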