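import Vale.Agent.P370.H115.Mix
import Vale.Agent.P370.H115.Bounds

/-! `KapStmt`: closed formula and bounds of `kap`. -/

namespace Vale.Agent.P370.H115

open MeasureTheory Set
open Vale.Agent.P363.Stmt Vale.Agent.P363.R.H10 Vale.Agent.P363.B5
open Vale.Agent.P370.H98
open scoped Nat

noncomputable section

lemma lam_eq {n J : ℕ} (hn : n = J + 1) : lam n =
    2 * 4 ^ (2 * J + 1) * ((2 * J + 1)! : ℝ) * ((n : ℝ) / 4) ^ (4 * J + 3) / √Real.pi := by
  subst hn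
  have hc : (0 : ℝ) < 4 / ((J + 1 : ℕ) : ℝ) := by positivity
  rw [lam, Nat.add_sub_cancel, integral_pow_exp hc,
    show 4 * J + 2 = 2 * (2 * J + 1) by ring, integral_pow_gauss]
  have hF : ((2 * (2 * J + 1))! : ℝ) ≠ 0 := by positivity
  have hs : √Real.pi ≠ 0 := by positivity
  have hn : ((J + 1 : ℕ) : ℝ) ≠ 0 := by positivity
  rw [show 2 * (2 * J + 1) + 1 = 4 * J + 3 by ring, div_pow, div_pow]
  have h4 : (4 : ℝ) ^ (2 * J + 1) ≠ 0 := by positivity
  have h5 : (4 : ℝ) ^ (4 * J + 3) ≠ 0 := by positivity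
  field_simp

lemma kap_closed {n J : ℕ} (hn : n = J + 1) (hJ : 1 ≤ J) :
    kap n = (2 * J + 1) / (8 * Real.pi * (n : ℝ) ^ 5) * bl J ^ 2 := by
  have h2 : 2 ≤ n := by omega
  have hcn : cn n ^ 4 = (2 / (Real.pi * (n ! : ℝ) ^ 2 * (n : ℝ) ^ (2 * n))) ^ 2 := by
    rw [← cn_sq]; ring
  rw [kap_eq h2, hcn, lam_eq hn, p32, pi32]
  subst hn
  rw [Nat.add_sub_cancel]
  have hJf : ((J + 1)! : ℝ) = ((J + 1 : ℕ) : ℝ) * (J ! : ℝ) := by
    rw [Nat.factorial_succ]; push_cast; ring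
  have h2J : ((2 * J + 1)! : ℝ) = (2 * J + 1) * ((2 * J)! : ℝ) := by
    rw [Nat.factorial_succ]; push_cast; ring
  have hbl : bl J = ((2 * J)! : ℝ) / (4 ^ J * (J ! : ℝ) ^ 2) := by
    have h := Nat.choose_mul_factorial_mul_factorial (n := 2 * J) (k := J) (by omega)
    rw [show 2 * J - J = J by omega] at h
    have h' : (Nat.centralBinom J : ℝ) * (J ! : ℝ) * (J ! : ℝ) = ((2 * J)! : ℝ) := by
      rw [Nat.centralBinom]; exact_mod_cast h
    rw [bl, ← h']
    field_simp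
  rw [hJf, h2J, hbl]
  have hs : √Real.pi ≠ 0 := by positivity
  have hJ1 : ((J + 1 : ℕ) : ℝ) ≠ 0 := by positivity
  have hJ0 : (J ! : ℝ) ≠ 0 := by positivity
  have hp : Real.pi ≠ 0 := Real.pi_ne_zero
  set N : ℝ := ((J + 1 : ℕ) : ℝ)
  set F : ℝ := ((2 * J)! : ℝ)
  rw [div_pow N, show (4 : ℝ) ^ (4 * J + 3) = 4 ^ (2 * J + 1) * (4 ^ J) ^ 2 * 16 by
    rw [show 4 * J + 3 = (2 * J + 1) + J * 2 + 2 by ring, pow_add, pow_add, pow_mul]; norm_num]
  rw [show 2 * (J + 1) = 2 * J + 2 by ring]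
  have h4 : (4 : ℝ) ^ (2 * J + 1) ≠ 0 := by positivity
  have h5 : (4 : ℝ) ^ J ≠ 0 := by positivity
  field_simp
  ring

theorem kap_stmt : KapStmt := by
  intro n hn
  obtain ⟨J, rfl⟩ : ∃ J, n = J + 1 := ⟨n - 1, by omega⟩
  have hJ : 1 ≤ J := by omega
  have hJ' : (1 : ℝ) ≤ J := by exact_mod_cast hJ
  have hk := kap_closed (n := J + 1) rfl hJ
  have hpi := Real.pi_pos
  set N : ℝ := ((J + 1 : ℕ) : ℝ) with hN
  have hNJ : N = J + 1 := by rw [hN]; push_cast; ring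
  have hN0 : 0 < N := by rw [hNJ]; linarith
  refine ⟨?_, ?_, ?_⟩
  · rw [hk]
    have hbl : bl J = ((2 * J)! : ℝ) / (4 ^ J * (J ! : ℝ) ^ 2) := by
      have h := Nat.choose_mul_factorial_mul_factorial (n := 2 * J) (k := J) (by omega)
      rw [show 2 * J - J = J by omega] at h
      have h' : (Nat.centralBinom J : ℝ) * (J ! : ℝ) * (J ! : ℝ) = ((2 * J)! : ℝ) := by
        rw [Nat.centralBinom]; exact_mod_cast h
      rw [bl, ← h']
      field_simp
    have hJf : ((J + 1)! : ℝ) = N * (J ! : ℝ) := by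
      rw [Nat.factorial_succ, hN]; push_cast; ring
    rw [hbl, Nat.add_sub_cancel, hJf, show 2 * N - 1 = 2 * J + 1 by rw [hNJ]; ring,
      show (16 : ℝ) ^ J = (4 ^ J) ^ 2 by rw [← pow_mul, mul_comm, pow_mul]; norm_num]
    have hJ0 : (J ! : ℝ) ≠ 0 := by positivity
    field_simp
  · rw [hk]
    have h1 : 1 / (2 * (J : ℝ)) ≤ bl J := by
      have := Nat.four_pow_le_two_mul_self_mul_centralBinom J (by omega)
      have h' : (4 : ℝ) ^ J ≤ 2 * J * (Nat.centralBinom J : ℝ) := by exact_mod_cast this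
      rw [bl, div_le_div_iff₀ (by positivity) (by positivity)]
      linarith
    have h2 : 1 / (4 * (J : ℝ) ^ 2) ≤ bl J ^ 2 := by
      calc 1 / (4 * (J : ℝ) ^ 2) = (1 / (2 * (J : ℝ))) ^ 2 := by field_simp; norm_num
        _ ≤ _ := by gcongr
    calc 1 / (16 * Real.pi * N ^ 6) ≤ (2 * J + 1) / (8 * Real.pi * N ^ 5) * (1 / (4 * (J : ℝ) ^ 2)) := by
          rw [div_mul_div_comm, div_le_div_iff₀ (by positivity) (by positivity)]
          have : 8 * Real.pi * N ^ 5 * (4 * (J : ℝ) ^ 2) = (16 * Real.pi * N ^ 5) * (2 * (J : ℝ) ^ 2) := by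
            ring
          rw [one_mul, this]
          have h3 : 2 * (J : ℝ) ^ 2 ≤ (2 * J + 1) * N := by rw [hNJ]; nlinarith
          calc (16 * Real.pi * N ^ 5) * (2 * (J : ℝ) ^ 2) ≤ (16 * Real.pi * N ^ 5) * ((2 * J + 1) * N) := by
                gcongr
            _ = _ := by ring
      _ ≤ _ := by gcongr
  · rw [hk]
    have h1 := bl_sq J
    have hpi3 := Real.pi_gt_three
    calc (2 * J + 1) / (8 * Real.pi * N ^ 5) * bl J ^ 2 = ((2 * J + 1) * bl J ^ 2) / (8 * Real.pi * N ^ 5) := by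
          ring
      _ ≤ 1 / (8 * Real.pi * N ^ 5) := by gcongr
      _ ≤ 1 / N ^ 5 := by
          apply one_div_le_one_div_of_le (by positivity)
          have : 0 < N ^ 5 := by positivity
          nlinarith

end

end Vale.Agent.P370.H115
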