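import Vale.Agent.P370.H115.Bounds
import Mathlib.Analysis.SpecialFunctions.Trigonometric.Bounds

/-! The `L¹` bound of the overlap charges (`L1Stmt`). -/

namespace Vale.Agent.P370.H115

open MeasureTheory Set MvPolynomial
open Vale.Agent.P363.Stmt Vale.Agent.P363.R.H10 Vale.Agent.P363.B5
open scoped Nat

noncomputable section

/-- the majorant `(z² + w ρ²)^J` -/
def qd (w : ℝ) (J : ℕ) (x : R3) : ℝ := (x 2 ^ 2 + w * (x 0 ^ 2 + x 1 ^ 2)) ^ J

lemma qd_nonneg {w : ℝ} (hw : 0 ≤ w) (J : ℕ) (x : R3) : 0 ≤ qd w J x := by unfold qd; positivity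

lemma qd_le {w : ℝ} (hw : 0 ≤ w) (hw1 : w ≤ 1) (J : ℕ) (x : R3) : qd w J x ≤ ‖x‖ ^ (2 * J) := by
  unfold qd
  rw [pow_mul]
  gcongr
  rw [norm_sq_eq_sum]
  nlinarith [sq_nonneg (x 0), sq_nonneg (x 1)]

lemma evx_quad (w : ℝ) (J : ℕ) (x : R3) : evx x ((X 2 ^ 2 + C (w : ℂ) * rp) ^ J) = (qd w J x : ℂ) := by
  simp [qd, rp]

lemma continuous_ew (n : ℕ) : Continuous (ew n) := by unfold ew; fun_prop

lemma continuous_qd (w : ℝ) (J : ℕ) : Continuous (qd w J) := by unfold qd; fun_prop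

lemma integrable_qd {n : ℕ} (hn : 1 ≤ n) {w : ℝ} (hw : 0 ≤ w) (hw1 : w ≤ 1) (J : ℕ) :
    Integrable (fun x : R3 => qd w J x * ew n x) := by
  have hc : (0 : ℝ) < 2 / n := by positivity
  obtain ⟨C, hC, h⟩ := decay_exists hc (2 * J)
  have hi : Integrable (fun x : R3 => C / (1 + ‖x‖) ^ 6) := by
    have := integrable_pow6.const_mul C
    simpa [div_eq_mul_inv] using this
  refine hi.mono' ((continuous_qd w J).mul (continuous_ew n)).aestronglyMeasurable
    (ae_of_all _ fun x => ?_)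
  have h0 : 0 < ew n x := Real.exp_pos _
  have h1 := qd_le hw hw1 J x
  have h2 : ‖x‖ ≤ 1 + ‖x‖ := by linarith
  rw [Real.norm_of_nonneg (mul_nonneg (qd_nonneg hw J x) h0.le)]
  refine le_trans ?_ (h ‖x‖ (norm_nonneg x))
  calc qd w J x * ew n x ≤ ‖x‖ ^ (2 * J) * ew n x := by gcongr
    _ ≤ (1 + ‖x‖) ^ (2 * J) * ew n x := by gcongr
    _ = _ := rfl

theorem quad_integral {n : ℕ} (hn : 1 ≤ n) (w : ℝ) :
    cn n ^ 2 * ∫ x, qd w (n - 1) x * ew n x =
      2 * ∑ k ∈ Finset.range n, w ^ k * bl (n - 1 - k) := by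
  have h := norm_integral hn (P := fun x => (qd w (n - 1) x : ℂ)) ?_
  · have h2 := gL_quad w (n - 1)
    simp only [gL, evx_quad] at h2
    rw [h2] at h
    have h3 : ∫ x, (qd w (n - 1) x : ℂ) * (ew n x : ℂ) =
        ((∫ x, qd w (n - 1) x * ew n x : ℝ) : ℂ) := by
      rw [← integral_complex_ofReal]
      refine integral_congr_ae (ae_of_all _ fun x => ?_)
      simp only
      push_cast
      rfl
    rw [h3, ← Complex.ofReal_mul, ← Complex.ofReal_mul] at h
    have h4 := Complex.ofReal_injective h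
    rw [h4, show n - 1 + 1 = n by omega]
    have h5 : (Real.pi ^ (3 / 2 : ℝ)) ≠ 0 := by positivity
    have h6 : ((n - 1)! : ℝ) ≠ 0 := by positivity
    field_simp
  · intro t x _
    simp only [qd, PiLp.smul_apply, smul_eq_mul]
    rw [pow_mul, ← Complex.ofReal_pow, ← Complex.ofReal_pow, ← Complex.ofReal_mul, ← mul_pow]
    congr 2
    ring

lemma cos_bound {m i j : ℕ} (hm : 2 ≤ m) (hi : i < m) (hj : j < m) (hij : i ≠ j) :
    |Real.cos (rang m i - rang m j)| ≤ 1 - 2 / (m : ℝ) ^ 2 := by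
  have hm0 : (0 : ℝ) < m := by positivity
  have hpi := Real.pi_pos
  wlog h : j < i generalizing i j with H
  · have := H hj hi hij.symm (by omega)
    rwa [← Real.cos_neg, neg_sub] at this
  have e : rang m i - rang m j = Real.pi * ((i : ℝ) - j) / m := by unfold rang; ring
  rw [e]
  have h1 : (1 : ℝ) ≤ (i : ℝ) - j := by
    have : (j : ℝ) + 1 ≤ i := by exact_mod_cast h
    linarith
  have h2 : (i : ℝ) - j ≤ m - 1 := by
    have : (i : ℝ) + 1 ≤ m := by exact_mod_cast hi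
    have : (0 : ℝ) ≤ j := by positivity
    linarith
  set t : ℝ := (i : ℝ) - j
  have key : ∀ s : ℝ, 1 ≤ s → s ≤ m → Real.cos (Real.pi * s / m) ≤ 1 - 2 / (m : ℝ) ^ 2 := by
    intro s hs1 hs2
    have h3 : |Real.pi * s / m| ≤ Real.pi := by
      rw [abs_of_nonneg (by positivity), div_le_iff₀ hm0]
      gcongr
    refine (Real.cos_le_one_sub_mul_cos_sq h3).trans ?_
    have h4 : 2 / Real.pi ^ 2 * (Real.pi * s / m) ^ 2 = 2 * s ^ 2 / m ^ 2 := by field_simp
    rw [h4]
    have h5 : 2 / (m : ℝ) ^ 2 ≤ 2 * s ^ 2 / m ^ 2 := by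
      gcongr
      nlinarith
    linarith
  rw [abs_le]
  constructor
  · have h3 := key (m - t) (by linarith) (by linarith)
    have h4 : Real.pi * (m - t) / m = Real.pi - Real.pi * t / m := by field_simp
    rw [h4, Real.cos_pi_sub] at h3
    linarith
  · exact key t h1 (by linarith)

/-- general `L¹` bound in terms of the angle -/
theorem l1_bound {n : ℕ} (hn : 2 ≤ n) {a b κ : ℝ} (hκ : 0 < κ) (hk1 : κ ≤ 1)
    (hc : |Real.cos (a - b)| ≤ 1 - 2 * κ) :
    ∫ x, |ringC n a x * ringC n b x| ≤ 2 * √2 / (κ * √n) := by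
  have hn1 : 1 ≤ n := by omega
  obtain ⟨J, rfl⟩ : ∃ J, n = J + 1 := ⟨n - 1, by omega⟩
  set w := 1 - κ with hw
  have hw0 : 0 ≤ w := by linarith
  have hww : (1 + |Real.cos (a - b)|) / 2 ≤ w := by linarith
  have i1 := (integrable_qd hn1 hw0 (by linarith) J).const_mul (cn (J + 1) ^ 2)
  have step : ∫ x, |ringC (J + 1) a x * ringC (J + 1) b x| ≤
      ∫ x, cn (J + 1) ^ 2 * (qd w J x * ew (J + 1) x) := by
    apply integral_mono_of_nonneg (ae_of_all _ fun x => abs_nonneg _) i1 (ae_of_all _ fun x => ?_)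
    simp only
    rw [abs_mul]
    have h1 := abs_ringC_le' (J + 1) a x
    have h2 := abs_ringC_le' (J + 1) b x
    rw [Nat.add_sub_cancel] at h1 h2
    have h3 := sq_z_le hww x J
    have h4 : 0 < ew (J + 1) x := Real.exp_pos _
    have h5 := cn_nonneg (J + 1)
    calc |ringC (J + 1) a x| * |ringC (J + 1) b x| ≤
        (cn (J + 1) * ‖zet a x‖ ^ J * Real.exp (-‖x‖ / (J + 1 : ℕ))) *
        (cn (J + 1) * ‖zet b x‖ ^ J * Real.exp (-‖x‖ / (J + 1 : ℕ))) := by gcongr
      _ = cn (J + 1) ^ 2 * ((‖zet a x‖ ^ J * ‖zet b x‖ ^ J) * ew (J + 1) x) := by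
          rw [ew_eq]; ring
      _ ≤ _ := by
          gcongr
          exact h3
  rw [integral_const_mul] at step
  have hq := quad_integral hn1 w
  rw [Nat.add_sub_cancel] at hq
  rw [hq] at step
  have hs := sum_bound hw0 hκ (by linarith : w + κ ≤ 1) J
  refine step.trans ?_
  calc 2 * ∑ k ∈ Finset.range (J + 1), w ^ k * bl (J - k) ≤ 2 * (√(2 * J + 1) / ((J + 1) * κ)) := by
        gcongr
    _ ≤ 2 * (√2 * √((J : ℝ) + 1) / ((J + 1) * κ)) := by
        have : √(2 * J + 1) ≤ √2 * √((J : ℝ) + 1) := by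
          rw [← Real.sqrt_mul (by norm_num)]
          apply Real.sqrt_le_sqrt
          linarith
        gcongr
    _ = 2 * √2 / (κ * √((J + 1 : ℕ) : ℝ)) := by
        push_cast
        have h1 : √((J : ℝ) + 1) ≠ 0 := by positivity
        have h2 : √((J : ℝ) + 1) * √((J : ℝ) + 1) = (J : ℝ) + 1 := Real.mul_self_sqrt (by positivity)
        have h3 : ((J : ℝ) + 1) ≠ 0 := by positivity
        field_simp
        nlinarith

theorem l1_stmt : L1Stmt := by
  intro n m i j hn hm hi hj hij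
  have hm0 : (0 : ℝ) < m := by positivity
  have hm1 : (1 : ℝ) ≤ m := by exact_mod_cast (by omega : 1 ≤ m)
  have hc := cos_bound hm hi hj hij
  have h := l1_bound (κ := 1 / (m : ℝ) ^ 2) hn (by positivity)
    (by rw [div_le_one (by positivity)]; nlinarith) (by
      rw [← mul_div_assoc, mul_one]; exact hc)
  refine h.trans ?_
  have hn0 : (0 : ℝ) < √n := by
    have : 0 < n := by omega
    positivity
  have h2 : √2 ≤ 3 / 2 := by
    rw [Real.sqrt_le_left (by norm_num)]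
    norm_num
  calc 2 * √2 / (1 / (m : ℝ) ^ 2 * √n) = (2 * √2) * (m : ℝ) ^ 2 / √n := by field_simp
    _ ≤ 3 * (m : ℝ) ^ 2 / √n := by
        gcongr
        linarith

end

end Vale.Agent.P370.H115
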