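import Vale.Agent.P370.H115.RingDefs
import Mathlib.Analysis.SpecialFunctions.Trigonometric.Bounds

/-! Sums of four `2m`-th roots of unity: either zero in a trivial way or at least `1/m²`. -/

namespace Vale.Agent.P370.H115

noncomputable section

/-- the unit complex number `e^{it}` -/
def uz (t : ℝ) : ℂ := ⟨Real.cos t, Real.sin t⟩

lemma norm_uz (t : ℝ) : ‖uz t‖ = 1 := by
  have h : ‖uz t‖ ^ 2 = 1 := by
    rw [← Complex.normSq_eq_norm_sq, Complex.normSq_apply, uz]
    have := Real.sin_sq_add_cos_sq t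
    simp only
    nlinarith
  have h0 := norm_nonneg (uz t)
  nlinarith [sq_nonneg (‖uz t‖ - 1)]

lemma uz_mul_conj (t : ℝ) : uz t * (starRingEnd ℂ) (uz t) = 1 := by
  rw [Complex.mul_conj, Complex.normSq_eq_norm_sq, norm_uz]
  norm_num

/-- `|e^{is} + e^{it}| = 2 |cos ((s-t)/2)|` -/
lemma norm_uz_add (s t : ℝ) : ‖uz s + uz t‖ = 2 * |Real.cos ((s - t) / 2)| := by
  have h : ‖uz s + uz t‖ ^ 2 = (2 * |Real.cos ((s - t) / 2)|) ^ 2 := by
    rw [← Complex.normSq_eq_norm_sq, Complex.normSq_apply, mul_pow, sq_abs]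
    simp only [uz, Complex.add_re, Complex.add_im]
    have h1 : Real.cos (s - t) = 2 * Real.cos ((s - t) / 2) ^ 2 - 1 := by
      rw [← Real.cos_two_mul]; congr 1; ring
    rw [Real.cos_sub] at h1
    have h2 := Real.sin_sq_add_cos_sq s
    have h3 := Real.sin_sq_add_cos_sq t
    nlinarith
  exact (sq_eq_sq₀ (norm_nonneg _) (by positivity)).1 h

/-- pairs of signed poles -/
lemma pair_cases {m k l : ℕ} (hm : 0 < m) (hk : k < m) (hl : l < m) {e f : ℕ} (he : e ≤ 1) (hf : f ≤ 1) :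
    (k = l ∧ uz (rang m k + e * Real.pi) + uz (rang m l + f * Real.pi) = 0) ∨
      2 / (m : ℝ) ≤ ‖uz (rang m k + e * Real.pi) + uz (rang m l + f * Real.pi)‖ := by
  have hm' : (0 : ℝ) < m := by exact_mod_cast hm
  have hpi := Real.pi_pos
  by_cases hkl : k = l
  · subst hkl
    by_cases hef : e = f
    · subst hef
      right
      rw [norm_uz_add, sub_self, zero_div, Real.cos_zero, abs_one, mul_one, div_le_iff₀ hm']
      have : (1 : ℝ) ≤ m := by exact_mod_cast hm
      linarith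
    · left
      refine ⟨rfl, ?_⟩
      have h2 : ‖uz (rang m k + e * Real.pi) + uz (rang m k + f * Real.pi)‖ = 0 := by
        rw [norm_uz_add]
        have h3 : (rang m k + e * Real.pi - (rang m k + f * Real.pi)) / 2 = (e - f : ℝ) * (Real.pi / 2) := by
          ring
        rw [h3]
        have h4 : (e = 0 ∧ f = 1) ∨ (e = 1 ∧ f = 0) := by omega
        rcases h4 with ⟨rfl, rfl⟩ | ⟨rfl, rfl⟩ <;> norm_num
      exact norm_eq_zero.1 h2
  · right
    rw [norm_uz_add]
    -- the integer `q`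
    set q : ℤ := ((k : ℤ) - l) + ((e : ℤ) - f) * m with hq
    have harg : (rang m k + e * Real.pi - (rang m l + f * Real.pi)) / 2 = Real.pi * (q : ℝ) / (2 * m) := by
      rw [hq]; unfold rang; push_cast; field_simp; ring
    rw [harg]
    have hqb : |q| ≤ 2 * m - 1 ∧ |q| ≠ m := by
      have hk' : (k : ℤ) < m := by exact_mod_cast hk
      have hl' : (l : ℤ) < m := by exact_mod_cast hl
      have hkl' : (k : ℤ) ≠ l := by exact_mod_cast hkl
      have h4 : (e = 0 ∨ e = 1) ∧ (f = 0 ∨ f = 1) := by omega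
      have hk0 : (0 : ℤ) ≤ k := by positivity
      have hl0 : (0 : ℤ) ≤ l := by positivity
      have hqc : q = (k : ℤ) - l ∨ q = (k : ℤ) - l + m ∨ q = (k : ℤ) - l - m := by
        rcases h4 with ⟨rfl | rfl, rfl | rfl⟩
        · left; rw [hq]; push_cast; ring
        · right; right; rw [hq]; push_cast; ring
        · right; left; rw [hq]; push_cast; ring
        · left; rw [hq]; push_cast; ring
      clear_value q
      rcases abs_cases q with h | h <;> rcases hqc with h' | h' | h' <;> constructor <;> omega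
    have habs : |Real.cos (Real.pi * (q : ℝ) / (2 * m))| = |Real.cos (Real.pi * ((|q| : ℤ) : ℝ) / (2 * m))| := by
      rcases abs_cases q with h | h
      · rw [h.1]
      · rw [h.1]
        push_cast
        rw [mul_neg, neg_div, Real.cos_neg]
    rw [habs]
    obtain ⟨p, hp⟩ : ∃ p : ℕ, |q| = p := ⟨q.natAbs, by simp⟩
    rw [hp] at hqb ⊢
    have hp1 : p ≤ 2 * m - 1 := by omega
    have hp2 : p ≠ m := by omega
    have hp3 : p + 1 ≤ 2 * m := by omega
    clear_value q
    have key : ∀ r : ℕ, r + 1 ≤ m → 1 / (m : ℝ) ≤ Real.cos (Real.pi * (r : ℝ) / (2 * m)) := by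
      intro r hr
      have hr' : (r : ℝ) + 1 ≤ m := by exact_mod_cast hr
      have h5 : Real.pi * (r : ℝ) / (2 * m) = Real.pi / 2 - Real.pi * (m - r) / (2 * m) := by
        field_simp; ring
      rw [h5, Real.cos_pi_div_two_sub]
      have h6 : 0 ≤ Real.pi * (m - r) / (2 * m) := by
        apply div_nonneg _ (by positivity)
        apply mul_nonneg hpi.le; linarith
      have h7 : Real.pi * (m - r) / (2 * m) ≤ Real.pi / 2 := by
        rw [div_le_div_iff₀ (by positivity) (by norm_num)]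
        have : (0 : ℝ) ≤ r := by positivity
        nlinarith [mul_nonneg hpi.le this]
      have h8 := Real.mul_le_sin h6 h7
      refine le_trans ?_ h8
      have h9 : 2 / Real.pi * (Real.pi * (m - r) / (2 * m)) = (m - r) / m := by field_simp
      rw [h9]
      gcongr
      linarith
    have goal' : 1 / (m : ℝ) ≤ |Real.cos (Real.pi * ((p : ℤ) : ℝ) / (2 * m))| := by
      rw [Int.cast_natCast]
      rcases lt_or_gt_of_ne hp2 with h | h
      · exact (key p (by omega)).trans (le_abs_self _)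
      · have h10 := key (2 * m - p) (by omega)
        have h11 : Real.pi * ((2 * m - p : ℕ) : ℝ) / (2 * m) = Real.pi - Real.pi * (p : ℝ) / (2 * m) := by
          rw [Nat.cast_sub (by omega)]
          push_cast
          field_simp
        rw [h11, Real.cos_pi_sub] at h10
        exact h10.trans (neg_le_abs _)
    have : 2 / (m : ℝ) = 2 * (1 / m) := by ring
    rw [this]
    linarith

/-- the algebraic identity for four unit complex numbers -/
lemma four_identity {z1 z2 z3 z4 : ℂ} (h1 : z1 * (starRingEnd ℂ) z1 = 1)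
    (h2 : z2 * (starRingEnd ℂ) z2 = 1) (h3 : z3 * (starRingEnd ℂ) z3 = 1)
    (h4 : z4 * (starRingEnd ℂ) z4 = 1) :
    (z1 + z2) * (z1 + z3) * (z1 + z4) = z1 ^ 2 * (z1 + z2 + z3 + z4) +
      z1 * z2 * z3 * z4 * (starRingEnd ℂ) (z1 + z2 + z3 + z4) := by
  simp only [map_add]
  linear_combination (-(z2 * z3 * z4)) * h1 - (z1 * z3 * z4) * h2 - (z1 * z2 * z4) * h3 -
    (z1 * z2 * z3) * h4

lemma four_bound {z1 z2 z3 z4 : ℂ} {μ : ℝ} (hμ : 0 < μ) (hμ1 : μ ≤ 1) (h1 : ‖z1‖ = 1) (h2 : ‖z2‖ = 1)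
    (h3 : ‖z3‖ = 1) (h4 : ‖z4‖ = 1) (a2 : μ ≤ ‖z1 + z2‖) (a3 : μ ≤ ‖z1 + z3‖) (a4 : μ ≤ ‖z1 + z4‖) :
    μ ^ 2 / 4 ≤ ‖z1 + z2 + z3 + z4‖ := by
  have cj : ∀ z : ℂ, ‖z‖ = 1 → z * (starRingEnd ℂ) z = 1 := by
    intro z hz
    rw [Complex.mul_conj, Complex.normSq_eq_norm_sq, hz]; norm_num
  have hid := four_identity (cj _ h1) (cj _ h2) (cj _ h3) (cj _ h4)
  set s := ‖z1 + z2 + z3 + z4‖ with hs
  have hprod : ‖z1 + z2‖ * ‖z1 + z3‖ * ‖z1 + z4‖ ≤ 2 * s := by
    have := congrArg norm hid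
    rw [norm_mul, norm_mul] at this
    rw [this]
    refine (norm_add_le _ _).trans ?_
    rw [norm_mul, norm_mul, norm_pow, norm_mul, norm_mul, norm_mul, RCLike.norm_conj, h1, h2, h3, h4,
      ← hs]
    linarith
  have hsum : 2 - s ≤ ‖z1 + z2‖ + ‖z1 + z3‖ + ‖z1 + z4‖ := by
    have e1 : (z1 + z2) + (z1 + z3) + (z1 + z4) = 2 * z1 + (z1 + z2 + z3 + z4) := by ring
    have e2 : ‖2 * z1‖ - ‖z1 + z2 + z3 + z4‖ ≤ ‖2 * z1 + (z1 + z2 + z3 + z4)‖ := by
      have := norm_sub_norm_le (2 * z1) (-(z1 + z2 + z3 + z4))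
      rw [norm_neg, sub_neg_eq_add] at this
      exact this
    rw [norm_mul, h1] at e2
    have e3 : ‖(2 : ℂ)‖ = 2 := by norm_num
    rw [e3, mul_one, ← e1] at e2
    refine e2.trans ?_
    exact (norm_add_le _ _).trans (add_le_add (norm_add_le _ _) le_rfl)
  by_contra hc
  push Not at hc
  have hs4 : s < 1 / 4 := by
    have : μ ^ 2 ≤ 1 := by nlinarith
    linarith
  set A := ‖z1 + z2‖
  set B := ‖z1 + z3‖
  set D := ‖z1 + z4‖
  have hμ2 : 0 < μ ^ 2 := by positivity
  have hcases : 1 / 2 ≤ A ∨ 1 / 2 ≤ B ∨ 1 / 2 ≤ D := by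
    by_contra h
    push Not at h
    linarith [h.1, h.2.1, h.2.2]
  have hlow : μ ^ 2 / 2 ≤ A * B * D := by
    rcases hcases with h | h | h
    · have h5 : μ ^ 2 ≤ B * D := by nlinarith
      nlinarith [mul_le_mul h h5 hμ2.le (by linarith : (0 : ℝ) ≤ A)]
    · have h5 : μ ^ 2 ≤ A * D := by nlinarith
      nlinarith [mul_le_mul h h5 hμ2.le (by linarith : (0 : ℝ) ≤ B)]
    · have h5 : μ ^ 2 ≤ A * B := by nlinarith
      nlinarith [mul_le_mul h h5 hμ2.le (by linarith : (0 : ℝ) ≤ D)]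
  linarith

/-- **non-resonant sums** -/
theorem nonres {m a b c d : ℕ} (ha : a < m) (hb : b < m) (hc : c < m) (hd : d < m) (hab : a ≠ b)
    (hne : ¬ ((c = a ∧ d = b) ∨ (c = b ∧ d = a))) {e1 e2 e3 e4 : ℕ} (h1 : e1 ≤ 1) (h2 : e2 ≤ 1)
    (h3 : e3 ≤ 1) (h4 : e4 ≤ 1) :
    1 / (m : ℝ) ^ 2 ≤ ‖uz (rang m a + e1 * Real.pi) + uz (rang m b + e2 * Real.pi) +
      uz (rang m c + e3 * Real.pi) + uz (rang m d + e4 * Real.pi)‖ := by
  have hm : 0 < m := by omega
  have hm2 : 2 ≤ m := by omega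
  have hm2' : (2 : ℝ) ≤ m := by exact_mod_cast hm2
  have hm' : (0 : ℝ) < m := by positivity
  have hsm : 1 / (m : ℝ) ^ 2 ≤ 2 / m := by
    rw [div_le_div_iff₀ (by positivity) hm']
    nlinarith
  set z1 := uz (rang m a + e1 * Real.pi)
  set z2 := uz (rang m b + e2 * Real.pi)
  set z3 := uz (rang m c + e3 * Real.pi)
  set z4 := uz (rang m d + e4 * Real.pi)
  rcases pair_cases hm ha hb h1 h2 with h | k2
  · exact absurd h.1 hab
  rcases pair_cases hm ha hc h1 h3 with h | k3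
  · -- a = c
    rcases pair_cases hm hb hd h2 h4 with h' | k
    · exact absurd (Or.inl ⟨h.1.symm, h'.1.symm⟩) hne
    · have e : z1 + z2 + z3 + z4 = (z1 + z3) + (z2 + z4) := by ring
      rw [e, h.2, zero_add]
      exact hsm.trans k
  rcases pair_cases hm ha hd h1 h4 with h | k4
  · rcases pair_cases hm hb hc h2 h3 with h' | k
    · exact absurd (Or.inr ⟨h'.1.symm, h.1.symm⟩) hne
    · have e : z1 + z2 + z3 + z4 = (z1 + z4) + (z2 + z3) := by ring
      rw [e, h.2, zero_add]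
      exact hsm.trans k
  have h5 := four_bound (μ := 2 / (m : ℝ)) (by positivity)
    (by rw [div_le_one hm']; exact hm2') (norm_uz _) (norm_uz _) (norm_uz _) (norm_uz _) k2 k3 k4
  refine le_trans (le_of_eq ?_) h5
  field_simp
  norm_num

end

end Vale.Agent.P370.H115
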