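import Vale.Agent.P370.H115.Cone
import Vale.Agent.P370.H115.MixTrig
import Vale.Agent.P370.H98.R2aDefs

/-! The non-resonant fourfold integrals of the rings are exponentially small: `MixStmt`. -/

namespace Vale.Agent.P370.H115

open MeasureTheory Set MvPolynomial
open Vale.Agent.P363.Stmt Vale.Agent.P363.R.H10 Vale.Agent.P363.B5
open Vale.Agent.P370.H98
open scoped Nat

noncomputable section

/-! ### the Gaussian moments -/

/-- `p32 = π^{3/2}` -/
def p32 : ℝ := Real.pi ^ (3 / 2 : ℝ)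

lemma p32_pos : 0 < p32 := by unfold p32; positivity

lemma NN.norm {z : ℂ} (h : NN z) : ‖z‖ = z.re := by
  have : z = (z.re : ℂ) := by
    apply Complex.ext
    · simp
    · simp [h.2]
  rw [this, Complex.norm_real, Real.norm_of_nonneg (by simpa using h.1)]
  simp

lemma normSq_sum_uz (a b c d : ℝ) : ‖uz a + uz b + uz c + uz d‖ ^ 2 =
    (Real.cos a + Real.cos b + Real.cos c + Real.cos d) ^ 2 +
      (Real.sin a + Real.sin b + Real.sin c + Real.sin d) ^ 2 := by
  rw [← Complex.normSq_eq_norm_sq, Complex.normSq_apply]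
  simp only [uz, Complex.add_re, Complex.add_im]
  ring

lemma norm_sum_uz_le (a b c d : ℝ) : ‖uz a + uz b + uz c + uz d‖ ≤ 4 := by
  have h := norm_add_le (uz a + uz b + uz c) (uz d)
  have h2 := norm_add_le (uz a + uz b) (uz c)
  have h3 := norm_add_le (uz a) (uz b)
  rw [norm_uz] at h h2 h3
  rw [norm_uz] at h3
  linarith

/-- **the fourfold moments** -/
theorem moment_bound (a b c d : ℝ) (J : ℕ) :
    ‖gL (zp a ^ J * zp b ^ J * zp c ^ J * zp d ^ J)‖ ≤
      p32 * ((2 * J)! : ℝ) * (2 * J + 1) ^ 2 *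
        (1 - ‖uz a + uz b + uz c + uz d‖ ^ 2 / 16) ^ (2 * J) := by
  have hP : Cone (zp a ^ J * zp b ^ J * zp c ^ J * zp d ^ J) :=
    ((((Cone.zp a).pow J).mul ((Cone.zp b).pow J)).mul ((Cone.zp c).pow J)).mul ((Cone.zp d).pow J)
  obtain ⟨R, hR, e⟩ := cone_four (Cone.zp a) (Cone.zp b) (Cone.zp c) (Cone.zp d) J
  set V : ℝ := 16 - ((Real.cos a + Real.cos b + Real.cos c + Real.cos d) ^ 2 +
      (Real.sin a + Real.sin b + Real.sin c + Real.sin d) ^ 2) with hV
  have hs := gL_sum_pow a b c d hV (2 * J)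
  rw [show 2 * (2 * J) = 4 * J by ring, e, gL_add] at hs
  have hK : ((((4 * J).choose (2 * J) * (2 * J).choose J ^ 2 : ℕ) : Pol)) =
      C ((((4 * J).choose (2 * J) * (2 * J).choose J ^ 2 : ℕ) : ℝ) : ℂ) := by simp
  rw [hK, gL_C_mul] at hs
  set x := gL (zp a ^ J * zp b ^ J * zp c ^ J * zp d ^ J) with hx
  have hxN : NN x := hP.gL
  have hRN := hR.gL
  rw [hxN.norm]
  have hre := congrArg Complex.re hs
  rw [Complex.add_re, Complex.re_ofReal_mul, Complex.ofReal_re] at hre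
  have hV1 : V / 16 = 1 - ‖uz a + uz b + uz c + uz d‖ ^ 2 / 16 := by
    rw [normSq_sum_uz, hV]; ring
  rw [← hV1]
  have hfold : Real.pi ^ (3 / 2 : ℝ) = p32 := rfl
  rw [hfold] at hre
  -- factorials
  have c1 : ((4 * J).choose (2 * J) : ℝ) * ((2 * J)! : ℝ) * ((2 * J)! : ℝ) = ((4 * J)! : ℝ) := by
    have := Nat.choose_mul_factorial_mul_factorial (n := 4 * J) (k := 2 * J) (by omega)
    rw [show 4 * J - 2 * J = 2 * J by omega] at this
    exact_mod_cast this
  have c2 : (4 : ℝ) ^ J ≤ (2 * J + 1) * ((2 * J).choose J : ℝ) := by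
    have := Nat.four_pow_le_two_mul_add_one_mul_central_binom J
    exact_mod_cast this
  have hA : (0 : ℝ) < ((4 * J).choose (2 * J) : ℝ) := by
    have := Nat.choose_pos (n := 4 * J) (k := 2 * J) (by omega)
    exact_mod_cast this
  have hB : (0 : ℝ) < ((2 * J).choose J : ℝ) := by
    have := Nat.choose_pos (n := 2 * J) (k := J) (by omega)
    exact_mod_cast this
  set A : ℝ := ((4 * J).choose (2 * J) : ℝ)
  set B : ℝ := ((2 * J).choose J : ℝ)
  set F : ℝ := ((2 * J)! : ℝ) with hF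
  have hF0 : 0 < F := by rw [hF]; positivity
  have hle : A * B ^ 2 * x.re ≤ p32 * (A * F * F / F) * (V / 4) ^ (2 * J) := by
    have h1 : 0 ≤ (gL R).re := hRN.1
    have h2 : (((((4 * J).choose (2 * J) * (2 * J).choose J ^ 2 : ℕ) : ℝ))) = A * B ^ 2 := by
      push_cast; rfl
    rw [h2] at hre
    rw [c1]
    linarith
  have hle2 : B ^ 2 * x.re ≤ p32 * F * (V / 4) ^ (2 * J) := by
    have e1 : p32 * (A * F * F / F) * (V / 4) ^ (2 * J) = A * (p32 * F * (V / 4) ^ (2 * J)) := by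
      field_simp
    rw [e1, mul_assoc] at hle
    exact le_of_mul_le_mul_left hle hA
  have h16 : (16 : ℝ) ^ J ≤ (2 * J + 1) ^ 2 * B ^ 2 := by
    calc (16 : ℝ) ^ J = ((4 : ℝ) ^ J) ^ 2 := by rw [← pow_mul, mul_comm, pow_mul]; norm_num
      _ ≤ ((2 * J + 1) * B) ^ 2 := by gcongr
      _ = _ := by ring
  have hx0 : 0 ≤ x.re := hxN.1
  have h5 : (16 : ℝ) ^ J * x.re ≤ (2 * J + 1) ^ 2 * (p32 * F * (V / 4) ^ (2 * J)) := by
    calc (16 : ℝ) ^ J * x.re ≤ ((2 * J + 1) ^ 2 * B ^ 2) * x.re := by gcongr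
      _ = (2 * J + 1) ^ 2 * (B ^ 2 * x.re) := by ring
      _ ≤ _ := by gcongr
  have h6 : (V / 4) ^ (2 * J) = 16 ^ J * (V / 16) ^ (2 * J) := by
    rw [show V / 4 = 4 * (V / 16) by ring, mul_pow, pow_mul]; norm_num
  rw [h6] at h5
  have h7 : (16 : ℝ) ^ J * x.re ≤ 16 ^ J * (p32 * F * (2 * J + 1) ^ 2 * (V / 16) ^ (2 * J)) := by
    refine h5.trans (le_of_eq ?_)
    ring
  exact le_of_mul_le_mul_left h7 (by positivity)

lemma gL_unbal (a b : ℝ) (q : ℕ) : ∀ p, q < p → gL (zp a ^ p * zp b ^ q) = 0 := by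
  have hD : Da a (zp a) = 0 := by rw [Da_zp]; simp
  induction q with
  | zero =>
    intro p hp
    obtain ⟨k, rfl⟩ : ∃ k, p = k + 1 := ⟨p - 1, by omega⟩
    rw [pow_zero, mul_one, pow_succ', gL_zp_mul, Derivation.leibniz_pow, hD]
    simp [gL]
  | succ q ih =>
    intro p hp
    obtain ⟨k, rfl⟩ : ∃ k, p = k + 1 := ⟨p - 1, by omega⟩
    have e1 : zp a ^ (k + 1) * zp b ^ (q + 1) = zp a * (zp a ^ k * zp b ^ (q + 1)) := by ring
    rw [e1, gL_zp_mul, Derivation.leibniz, Derivation.leibniz_pow, Derivation.leibniz_pow, Da_zp, hD]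
    have e3 : zp a ^ k • (q + 1) • zp b ^ (q + 1 - 1) • (C (((1 - Real.cos (a - b) : ℝ) : ℂ)) : Pol) +
        zp b ^ (q + 1) • k • zp a ^ (k - 1) • (0 : Pol) =
        C (((q + 1 : ℕ) : ℂ) * ((1 - Real.cos (a - b) : ℝ) : ℂ)) * (zp a ^ k * zp b ^ q) := by
      rw [Nat.add_sub_cancel, nsmul_eq_mul, map_mul]
      have : (C (((q + 1 : ℕ) : ℂ)) : Pol) = ((q + 1 : ℕ) : Pol) := by simp
      rw [this]
      simp only [smul_eq_mul, mul_zero, smul_zero]
      ring
    rw [e3, gL_C_mul, ih k (by omega)]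
    simp

/-! ### radial factor -/

/-- the common factor of all the integrals of homogeneous functions of degree `4 (n-1)` -/
def lam (n : ℕ) : ℝ := (∫ r in Ioi (0 : ℝ), r ^ (4 * (n - 1) + 2) * Real.exp (-(4 / n * r))) /
  ∫ r in Ioi (0 : ℝ), r ^ (4 * (n - 1) + 2) * Real.exp (-r ^ 2)

/-- the weight `e^{-4r/n}` -/
def e4 (n : ℕ) (x : R3) : ℝ := Real.exp (-(4 / n * ‖x‖))

lemma gauss_int_pos (n : ℕ) (hn : 1 ≤ n) :
    0 < ∫ r in Ioi (0 : ℝ), r ^ (4 * (n - 1) + 2) * Real.exp (-r ^ 2) := by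
  rw [show 4 * (n - 1) + 2 = 2 * (2 * (n - 1) + 1) by ring, integral_pow_gauss]
  positivity

lemma lam_pos {n : ℕ} (hn : 1 ≤ n) : 0 < lam n := by
  refine div_pos ?_ (gauss_int_pos n hn)
  have hc : (0 : ℝ) < 4 / n := by positivity
  rw [integral_pow_exp hc]
  positivity

theorem lam_integral {n : ℕ} (hn : 1 ≤ n) {P : R3 → ℂ}
    (hP : ∀ (t : ℝ) (x : R3), 0 < t → P (t • x) = (t : ℂ) ^ (4 * (n - 1)) * P x) :
    ∫ x, P x * (e4 n x : ℂ) = (lam n : ℂ) * ∫ x, P x * (gw x : ℂ) := by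
  have h1 := hom_integral hP (fun r => Real.exp (-(4 / n * r)))
  have h2 := hom_integral hP (fun r => Real.exp (-r ^ 2))
  simp only [e4, gw]
  rw [h1, h2]
  have h3 := (gauss_int_pos n hn).ne'
  have h4 : ((∫ r in Ioi (0 : ℝ), r ^ (4 * (n - 1) + 2) * Real.exp (-r ^ 2) : ℝ) : ℂ) ≠ 0 := by
    exact_mod_cast h3
  rw [lam, Complex.ofReal_div]
  field_simp

lemma ring_complex (n : ℕ) (a : ℝ) (x : R3) : (ringC n a x : ℂ) =
    (cn n / 2 : ℝ) * (zet a x ^ (n - 1) + zet (a + Real.pi) x ^ (n - 1)) *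
      (Real.exp (-‖x‖ / n) : ℝ) := by
  have h : zet (a + Real.pi) x ^ (n - 1) = (starRingEnd ℂ) (zet a x ^ (n - 1)) := by
    rw [zet_add_pi, map_pow]
  have h2 := Complex.add_conj (zet a x ^ (n - 1))
  rw [h, h2, ringC]
  push_cast
  ring

lemma ringS_complex (n : ℕ) (a : ℝ) (x : R3) : (ringS n a x : ℂ) * Complex.I =
    (cn n / 2 : ℝ) * (zet a x ^ (n - 1) - zet (a + Real.pi) x ^ (n - 1)) *
      (Real.exp (-‖x‖ / n) : ℝ) := by
  have h : zet (a + Real.pi) x ^ (n - 1) = (starRingEnd ℂ) (zet a x ^ (n - 1)) := by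
    rw [zet_add_pi, map_pow]
  have h2 := Complex.sub_conj (zet a x ^ (n - 1))
  rw [h, h2, ringS]
  push_cast
  ring

lemma e4_eq (n : ℕ) (x : R3) : e4 n x = Real.exp (-‖x‖ / n) ^ 4 := by
  rw [e4, ← Real.exp_nat_mul]
  congr 1
  push_cast
  ring

/-- the real factor polynomial `ζ_a^J + ζ_{a+π}^J` -/
def cp (n : ℕ) (a : ℝ) : Pol := zp a ^ (n - 1) + zp (a + Real.pi) ^ (n - 1)

lemma evx_cp (n : ℕ) (a : ℝ) (x : R3) :
    evx x (cp n a) = zet a x ^ (n - 1) + zet (a + Real.pi) x ^ (n - 1) := by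
  simp [cp]

lemma evx_cp_smul (n : ℕ) (a t : ℝ) (x : R3) :
    evx (t • x) (cp n a) = (t : ℂ) ^ (n - 1) * evx x (cp n a) := by
  rw [evx_cp, evx_cp, zet_smul, zet_smul]
  ring

theorem M4_eq {n : ℕ} (hn : 1 ≤ n) (a b c d : ℝ) : (M4 n a b c d : ℂ) =
    (cn n ^ 4 / 16 * lam n : ℝ) * gL (cp n a * cp n b * cp n c * cp n d) := by
  have h := lam_integral hn (P := fun x => evx x (cp n a * cp n b * cp n c * cp n d)) ?_
  · rw [M4, ← integral_complex_ofReal]
    have e : ∀ x : R3, (((ringC n a x * ringC n b x) * (ringC n c x * ringC n d x) : ℝ) : ℂ) =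
        (cn n ^ 4 / 16 : ℝ) * (evx x (cp n a * cp n b * cp n c * cp n d) * (e4 n x : ℂ)) := by
      intro x
      rw [Complex.ofReal_mul, Complex.ofReal_mul, Complex.ofReal_mul, ring_complex, ring_complex,
        ring_complex, ring_complex, evx_mul, evx_mul, evx_mul, evx_cp, evx_cp, evx_cp, evx_cp, e4_eq]
      push_cast
      ring
    simp_rw [e]
    rw [integral_const_mul, h, gL]
    push_cast
    ring
  · intro t x _
    simp only [evx_mul, evx_cp_smul]
    ring

theorem kap_eq {n : ℕ} (hn : 2 ≤ n) :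
    kap n = cn n ^ 4 / 4 * lam n * (p32 * ((2 * (n - 1))! : ℝ)) := by
  have hn1 : 1 ≤ n := by omega
  set J := n - 1 with hJ
  have hJ1 : 1 ≤ J := by omega
  set A : Pol := zp 0 ^ J with hA
  set B : Pol := zp Real.pi ^ J with hB
  -- the polynomial `(w^4 + 2 w^3 w̄ + 2 w² w̄² + 2 w w̄³ + w̄^4)`
  set Q : Pol := A ^ 4 + C 2 * (A ^ 3 * B) + C 2 * (A ^ 2 * B ^ 2) + C 2 * (B ^ 3 * A) + B ^ 4 with hQ
  have hz : ∀ x : R3, evx x A = zet 0 x ^ J ∧ evx x B = zet (0 + Real.pi) x ^ J := by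
    intro x; simp [hA, hB]
  have hsm : ∀ (t : ℝ) (x : R3), evx (t • x) A = (t : ℂ) ^ J * evx x A ∧
      evx (t • x) B = (t : ℂ) ^ J * evx x B := by
    intro t x
    rw [(hz _).1, (hz _).2, (hz _).1, (hz _).2, zet_smul, zet_smul]
    constructor <;> ring
  have h := lam_integral hn1 (P := fun x => evx x Q) ?_
  · have e : ∀ x : R3, (((ringC n 0 x ^ 2 - ringS n 0 x ^ 2) * ringC n 0 x ^ 2 : ℝ) : ℂ) =
        (cn n ^ 4 / 8 : ℝ) * (evx x Q * (e4 n x : ℂ)) := by
      intro x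
      have hS : (ringS n 0 x : ℂ) ^ 2 = -((ringS n 0 x : ℂ) * Complex.I) ^ 2 := by
        rw [mul_pow, Complex.I_sq]; ring
      rw [Complex.ofReal_mul, Complex.ofReal_sub, Complex.ofReal_pow, Complex.ofReal_pow, hS,
        ring_complex, ringS_complex, ← hJ, ← (hz x).1, ← (hz x).2, e4_eq, hQ]
      simp only [evx_add, evx_mul, evx_pow, evx_C]
      push_cast
      ring
    have h2 : gL Q = (2 * (p32 * ((2 * J)! : ℝ)) : ℝ) := by
      have u1 : gL (A ^ 4) = 0 := by
        have := gL_unbal 0 Real.pi 0 (4 * J) (by omega)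
        rw [pow_zero, mul_one] at this
        rw [hA, ← pow_mul, mul_comm J 4]
        exact this
      have u2 : gL (B ^ 4) = 0 := by
        have := gL_unbal Real.pi 0 0 (4 * J) (by omega)
        rw [pow_zero, mul_one] at this
        rw [hB, ← pow_mul, mul_comm J 4]
        exact this
      have u3 : gL (A ^ 3 * B) = 0 := by
        have := gL_unbal 0 Real.pi J (3 * J) (by omega)
        rw [hA, hB, ← pow_mul, mul_comm J 3]
        exact this
      have u4 : gL (B ^ 3 * A) = 0 := by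
        have := gL_unbal Real.pi 0 J (3 * J) (by omega)
        rw [hA, hB, ← pow_mul, mul_comm J 3]
        exact this
      have u5 : gL (A ^ 2 * B ^ 2) = ((p32 * ((2 * J)! : ℝ) : ℝ) : ℂ) := by
        have := gL_zp 0 Real.pi (2 * J)
        rw [hA, hB, ← pow_mul, ← pow_mul, mul_comm J 2, this]
        congr 1
        have : (1 - Real.cos (0 - Real.pi)) / 2 = 1 := by
          rw [zero_sub, Real.cos_neg, Real.cos_pi]; norm_num
        rw [this, one_pow, mul_one]
        rfl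
      rw [hQ, gL_add, gL_add, gL_add, gL_add, gL_C_mul, gL_C_mul, gL_C_mul, u1, u2, u3, u4, u5]
      push_cast
      ring
    have h3 : (kap n : ℂ) = ((cn n ^ 4 / 8 * (lam n * (2 * (p32 * ((2 * J)! : ℝ)))) : ℝ) : ℂ) := by
      rw [kap, ← integral_complex_ofReal]
      simp_rw [e]
      rw [integral_const_mul, h]
      have : (∫ x, evx x Q * (gw x : ℂ)) = gL Q := rfl
      rw [this, h2]
      push_cast
      ring
    have h4 := Complex.ofReal_injective h3
    rw [h4]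
    ring
  · intro t x _
    simp only [hQ, evx_add, evx_mul, evx_pow, evx_C, (hsm t x).1, (hsm t x).2]
    rw [← hJ]
    ring

lemma norm_gL_add_mul (A B F : Pol) {K : ℝ} (h1 : ‖gL (A * F)‖ ≤ K) (h2 : ‖gL (B * F)‖ ≤ K) :
    ‖gL ((A + B) * F)‖ ≤ 2 * K := by
  rw [add_mul, gL_add]
  refine (norm_add_le _ _).trans ?_
  linarith

theorem mix_stmt : MixStmt := by
  intro n m a b c d hn ha hb hc hd hab hne
  have hn1 : 1 ≤ n := by omega
  have hm : 0 < m := by omega
  have hm' : (0 : ℝ) < m := by exact_mod_cast hm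
  set J := n - 1 with hJ
  have hnJ : (n : ℝ) = J + 1 := by
    have : n = J + 1 := by omega
    rw [this]; push_cast; ring
  set K : ℝ := p32 * ((2 * J)! : ℝ) * (2 * J + 1) ^ 2 * Real.exp (-(J / (8 * (m : ℝ) ^ 4))) with hK
  have main : ∀ e1 e2 e3 e4 : ℕ, e1 ≤ 1 → e2 ≤ 1 → e3 ≤ 1 → e4 ≤ 1 →
      ‖gL (zp (rang m a + e1 * Real.pi) ^ J * zp (rang m b + e2 * Real.pi) ^ J *
        zp (rang m c + e3 * Real.pi) ^ J * zp (rang m d + e4 * Real.pi) ^ J)‖ ≤ K := by
    intro e1 e2 e3 e4 h1 h2 h3 h4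
    refine (moment_bound _ _ _ _ J).trans ?_
    have hs := nonres ha hb hc hd hab hne h1 h2 h3 h4
    have hs4 := norm_sum_uz_le (rang m a + e1 * Real.pi) (rang m b + e2 * Real.pi)
      (rang m c + e3 * Real.pi) (rang m d + e4 * Real.pi)
    set s := ‖uz (rang m a + e1 * Real.pi) + uz (rang m b + e2 * Real.pi) +
      uz (rang m c + e3 * Real.pi) + uz (rang m d + e4 * Real.pi)‖
    have hs0 : 0 ≤ s := norm_nonneg _
    have h5 : 1 / (m : ℝ) ^ 4 ≤ s ^ 2 := by
      calc 1 / (m : ℝ) ^ 4 = (1 / (m : ℝ) ^ 2) ^ 2 := by field_simp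
        _ ≤ s ^ 2 := by gcongr
    have h6 : 0 ≤ 1 - s ^ 2 / 16 := by nlinarith
    have h7 : 1 - s ^ 2 / 16 ≤ Real.exp (-(1 / (16 * (m : ℝ) ^ 4))) := by
      have := Real.add_one_le_exp (-(1 / (16 * (m : ℝ) ^ 4)))
      refine le_trans ?_ this
      have : 1 / (16 * (m : ℝ) ^ 4) = 1 / (m : ℝ) ^ 4 / 16 := by field_simp
      rw [this]
      linarith
    have h8 : (1 - s ^ 2 / 16) ^ (2 * J) ≤ Real.exp (-(J / (8 * (m : ℝ) ^ 4))) := by
      calc (1 - s ^ 2 / 16) ^ (2 * J) ≤ Real.exp (-(1 / (16 * (m : ℝ) ^ 4))) ^ (2 * J) := by gcongr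
        _ = Real.exp (-(J / (8 * (m : ℝ) ^ 4))) := by
            rw [← Real.exp_nat_mul]
            congr 1
            push_cast
            field_simp
            ring
    rw [hK]
    have := p32_pos
    gcongr
  have hsplit : ‖gL (cp n (rang m a) * cp n (rang m b) * cp n (rang m c) * cp n (rang m d))‖ ≤ 16 * K := by
    have z0 : ∀ t : ℝ, t = t + ((0 : ℕ) : ℝ) * Real.pi := by intro t; simp
    have z1 : ∀ t : ℝ, t + Real.pi = t + ((1 : ℕ) : ℝ) * Real.pi := by intro t; simp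
    have s4 : ∀ e1 e2 e3 : ℕ, e1 ≤ 1 → e2 ≤ 1 → e3 ≤ 1 →
        ‖gL (zp (rang m a + e1 * Real.pi) ^ J * zp (rang m b + e2 * Real.pi) ^ J *
          zp (rang m c + e3 * Real.pi) ^ J * cp n (rang m d))‖ ≤ 2 * K := by
      intro e1 e2 e3 h1 h2 h3
      rw [mul_comm, cp, ← hJ]
      apply norm_gL_add_mul
      · have := main e1 e2 e3 0 h1 h2 h3 (by norm_num)
        rw [← z0, mul_comm] at this
        exact this
      · have := main e1 e2 e3 1 h1 h2 h3 (by norm_num)
        rw [← z1, mul_comm] at this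
        exact this
    have s3 : ∀ e1 e2 : ℕ, e1 ≤ 1 → e2 ≤ 1 →
        ‖gL (cp n (rang m c) * (zp (rang m a + e1 * Real.pi) ^ J * zp (rang m b + e2 * Real.pi) ^ J *
          cp n (rang m d)))‖ ≤ 2 * (2 * K) := by
      intro e1 e2 h1 h2
      rw [cp, ← hJ]
      apply norm_gL_add_mul
      · have := s4 e1 e2 0 h1 h2 (by norm_num)
        rw [← z0] at this
        convert this using 3
        ring
      · have := s4 e1 e2 1 h1 h2 (by norm_num)
        rw [← z1] at this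
        convert this using 3
        ring
    have s2 : ∀ e1 : ℕ, e1 ≤ 1 →
        ‖gL (cp n (rang m b) * (cp n (rang m c) * (zp (rang m a + e1 * Real.pi) ^ J *
          cp n (rang m d))))‖ ≤ 2 * (2 * (2 * K)) := by
      intro e1 h1
      conv_lhs => rw [cp.eq_def n (rang m b), ← hJ]
      apply norm_gL_add_mul
      · have := s3 e1 0 h1 (by norm_num)
        rw [← z0] at this
        convert this using 3
        ring
      · have := s3 e1 1 h1 (by norm_num)
        rw [← z1] at this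
        convert this using 3
        ring
    have s1 : ‖gL (cp n (rang m a) * (cp n (rang m b) * (cp n (rang m c) * cp n (rang m d))))‖ ≤
        2 * (2 * (2 * (2 * K))) := by
      conv_lhs => rw [cp.eq_def n (rang m a), ← hJ]
      apply norm_gL_add_mul
      · have := s2 0 (by norm_num)
        rw [← z0] at this
        convert this using 3
        ring
      · have := s2 1 (by norm_num)
        rw [← z1] at this
        convert this using 3
        ring
    have e : cp n (rang m a) * cp n (rang m b) * cp n (rang m c) * cp n (rang m d) =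
        cp n (rang m a) * (cp n (rang m b) * (cp n (rang m c) * cp n (rang m d))) := by ring
    rw [e]
    linarith
  have hM := M4_eq hn1 (rang m a) (rang m b) (rang m c) (rang m d)
  have hMn := congrArg norm hM
  have hl := lam_pos hn1
  have hcn := cn_nonneg n
  have hc4 : 0 ≤ cn n ^ 4 / 16 * lam n := by positivity
  rw [Complex.norm_real, norm_mul, Complex.norm_real, Real.norm_eq_abs, Real.norm_of_nonneg hc4] at hMn
  rw [hMn, kap_eq hn, ← hJ]
  have hnJ1 : ((n : ℝ) - 1) = J := by rw [hnJ]; ring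
  rw [hnJ1]
  calc cn n ^ 4 / 16 * lam n * ‖gL (cp n (rang m a) * cp n (rang m b) * cp n (rang m c) * cp n (rang m d))‖
      ≤ cn n ^ 4 / 16 * lam n * (16 * K) := by gcongr
    _ = cn n ^ 4 * lam n * p32 * ((2 * J)! : ℝ) * Real.exp (-(J / (8 * (m : ℝ) ^ 4))) *
        (2 * J + 1) ^ 2 := by rw [hK]; ring
    _ ≤ cn n ^ 4 * lam n * p32 * ((2 * J)! : ℝ) * Real.exp (-(J / (8 * (m : ℝ) ^ 4))) *
        (4 * (n : ℝ) ^ 2) := by
        have h1 : (2 * (J : ℝ) + 1) ^ 2 ≤ 4 * (n : ℝ) ^ 2 := by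
          rw [hnJ]
          have : (0 : ℝ) ≤ J := by positivity
          nlinarith
        have := p32_pos
        gcongr
    _ = _ := by ring

end

end Vale.Agent.P370.H115
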