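import Vale.Agent.P370.H115.Hom

/-! Exact overlaps of the ring orbitals (`OverlapStmt`), decay of the ring orbitals. -/

namespace Vale.Agent.P370.H115

open MeasureTheory Set MvPolynomial
open Vale.Agent.P363.Stmt Vale.Agent.P363.R.H10 Vale.Agent.P363.B5
open scoped Nat

noncomputable section

/-! ### pointwise facts -/

lemma coords_sq (a : ℝ) (x : R3) : pco a x ^ 2 + wco a x ^ 2 + x 2 ^ 2 = ‖x‖ ^ 2 := by
  rw [norm_sq_eq_sum, pco, wco]
  have := Real.sin_sq_add_cos_sq a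
  linear_combination (x 0 ^ 2 + x 1 ^ 2) * this

lemma zet_normSq (a : ℝ) (x : R3) : ‖zet a x‖ ^ 2 = x 2 ^ 2 + wco a x ^ 2 := by
  rw [← Complex.normSq_eq_norm_sq, Complex.normSq_apply, zet, wco]
  ring

lemma zet_normSq' (a : ℝ) (x : R3) : ‖zet a x‖ ^ 2 = ‖x‖ ^ 2 - pco a x ^ 2 := by
  rw [zet_normSq, ← coords_sq a x]; ring

lemma norm_zet_le (a : ℝ) (x : R3) : ‖zet a x‖ ≤ ‖x‖ := by
  apply le_of_sq_le_sq _ (norm_nonneg _)
  rw [zet_normSq']
  nlinarith [sq_nonneg (pco a x)]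

lemma zet_smul (a t : ℝ) (x : R3) : zet a (t • x) = t * zet a x := by
  apply Complex.ext
  · simp [zet]
  · simp [zet]; ring

lemma zet_add_pi (b : ℝ) (x : R3) : zet (b + Real.pi) x = (starRingEnd ℂ) (zet b x) := by
  apply Complex.ext
  · simp [zet]
  · simp [zet, Real.sin_add_pi, Real.cos_add_pi]; ring

lemma continuous_zet (a : ℝ) : Continuous (zet a) := by
  have h : zet a = fun x => evx x (zp a) := by funext x; simp
  rw [h]
  exact continuous_evx _

lemma cn_nonneg (n : ℕ) : 0 ≤ cn n := by unfold cn; positivity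

lemma continuous_ringC (n : ℕ) (a : ℝ) : Continuous (ringC n a) := by
  unfold ringC
  have := continuous_zet a
  fun_prop

lemma continuous_ringS (n : ℕ) (a : ℝ) : Continuous (ringS n a) := by
  unfold ringS
  have := continuous_zet a
  fun_prop

lemma ring_sq (n : ℕ) (a : ℝ) (x : R3) : ringC n a x ^ 2 + ringS n a x ^ 2 =
    cn n ^ 2 * (‖zet a x‖ ^ 2) ^ (n - 1) * Real.exp (-‖x‖ / n) ^ 2 := by
  have h : ((zet a x) ^ (n - 1)).re ^ 2 + ((zet a x) ^ (n - 1)).im ^ 2 = (‖zet a x‖ ^ 2) ^ (n - 1) := by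
    rw [← pow_mul, mul_comm, pow_mul, ← norm_pow, ← Complex.normSq_eq_norm_sq, Complex.normSq_apply]
    ring
  rw [← h, ringC, ringS]
  ring

lemma abs_ringC_le' (n : ℕ) (a : ℝ) (x : R3) :
    |ringC n a x| ≤ cn n * ‖zet a x‖ ^ (n - 1) * Real.exp (-‖x‖ / n) := by
  rw [ringC, abs_mul, abs_mul, abs_of_nonneg (cn_nonneg n), abs_of_nonneg (Real.exp_pos _).le]
  have h : |((zet a x) ^ (n - 1)).re| ≤ ‖zet a x‖ ^ (n - 1) := by
    rw [← norm_pow]; exact Complex.abs_re_le_norm _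
  have := cn_nonneg n
  gcongr

lemma abs_ringS_le' (n : ℕ) (a : ℝ) (x : R3) :
    |ringS n a x| ≤ cn n * ‖zet a x‖ ^ (n - 1) * Real.exp (-‖x‖ / n) := by
  rw [ringS, abs_mul, abs_mul, abs_of_nonneg (cn_nonneg n), abs_of_nonneg (Real.exp_pos _).le]
  have h : |((zet a x) ^ (n - 1)).im| ≤ ‖zet a x‖ ^ (n - 1) := by
    rw [← norm_pow]; exact Complex.abs_im_le_norm _
  have := cn_nonneg n
  gcongr

lemma decay_exists {c : ℝ} (hc : 0 < c) (d : ℕ) : ∃ C, 0 ≤ C ∧ ∀ r : ℝ, 0 ≤ r →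
    (1 + r) ^ d * Real.exp (-(c * r)) ≤ C / (1 + r) ^ 6 := by
  refine ⟨((d + 6)! : ℝ) / c ^ (d + 6) * Real.exp c, by positivity, fun r hr => ?_⟩
  rw [le_div_iff₀ (by positivity)]
  have h := Real.pow_div_factorial_le_exp (c * (1 + r)) (by positivity) (d + 6)
  have h2 : (1 + r) ^ (d + 6) ≤ ((d + 6)! : ℝ) / c ^ (d + 6) * Real.exp (c * (1 + r)) := by
    rw [mul_pow, div_le_iff₀ (by positivity)] at h
    rw [div_mul_eq_mul_div, le_div_iff₀ (by positivity)]
    linarith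
  calc (1 + r) ^ d * Real.exp (-(c * r)) * (1 + r) ^ 6 = (1 + r) ^ (d + 6) * Real.exp (-(c * r)) := by ring
    _ ≤ (((d + 6)! : ℝ) / c ^ (d + 6) * Real.exp (c * (1 + r))) * Real.exp (-(c * r)) := by gcongr
    _ = ((d + 6)! : ℝ) / c ^ (d + 6) * Real.exp c := by
        rw [mul_assoc, ← Real.exp_add]; ring_nf

lemma ring_decay {n : ℕ} (hn : 1 ≤ n) : ∃ C, 0 ≤ C ∧ ∀ (a : ℝ) (x : R3),
    cn n * ‖zet a x‖ ^ (n - 1) * Real.exp (-‖x‖ / n) ≤ C / (1 + ‖x‖) ^ 6 := by
  have hc : (0 : ℝ) < 1 / n := by positivity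
  obtain ⟨C, hC, h⟩ := decay_exists hc (n - 1)
  refine ⟨cn n * C, mul_nonneg (cn_nonneg n) hC, fun a x => ?_⟩
  have h1 := h ‖x‖ (norm_nonneg x)
  have h2 : ‖zet a x‖ ≤ 1 + ‖x‖ := (norm_zet_le a x).trans (by linarith)
  have h3 := cn_nonneg n
  calc cn n * ‖zet a x‖ ^ (n - 1) * Real.exp (-‖x‖ / n)
      ≤ cn n * (1 + ‖x‖) ^ (n - 1) * Real.exp (-‖x‖ / n) := by gcongr
    _ = cn n * ((1 + ‖x‖) ^ (n - 1) * Real.exp (-(1 / n * ‖x‖))) := by
        rw [mul_assoc]; congr 3; ring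
    _ ≤ cn n * (C / (1 + ‖x‖) ^ 6) := by gcongr
    _ = _ := by ring

lemma nice_ringC {n : ℕ} (hn : 1 ≤ n) (a : ℝ) : Nice (ringC n a) := by
  obtain ⟨C, hC, h⟩ := ring_decay hn
  exact ⟨(continuous_ringC n a).measurable, C, hC, fun x => (abs_ringC_le' n a x).trans (h a x)⟩

lemma nice_ringS {n : ℕ} (hn : 1 ≤ n) (a : ℝ) : Nice (ringS n a) := by
  obtain ⟨C, hC, h⟩ := ring_decay hn
  exact ⟨(continuous_ringS n a).measurable, C, hC, fun x => (abs_ringS_le' n a x).trans (h a x)⟩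

lemma nice_mul {u w : R3 → ℝ} (hu : Nice u) (hw : Nice w) : Nice (fun x => u x * w x) := by
  obtain ⟨C, hC, hb⟩ := hu.bd
  obtain ⟨C', hC', hb'⟩ := hw.bd
  refine ⟨hu.meas.mul hw.meas, C * C', by positivity, fun x => ?_⟩
  rw [abs_mul]
  have h1 : (1 : ℝ) ≤ 1 + ‖x‖ := by linarith [norm_nonneg x]
  have h2 : C' / (1 + ‖x‖) ^ 6 ≤ C' := div_le_self hC' (one_le_pow₀ h1)
  calc |u x| * |w x| ≤ C / (1 + ‖x‖) ^ 6 * C' :=
        mul_le_mul (hb x) ((hb' x).trans h2) (abs_nonneg _) (by positivity)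
    _ = _ := by ring

/-! ### overlaps -/

lemma ew_eq (n : ℕ) (x : R3) : ew n x = Real.exp (-‖x‖ / n) ^ 2 := by
  rw [ew, ← Real.exp_nat_mul]
  congr 1
  push_cast
  ring

lemma integrable_zz {n : ℕ} (hn : 1 ≤ n) (a b : ℝ) (k : ℕ) : Integrable (fun x : R3 =>
    zet a x ^ k * zet b x ^ k * (ew n x : ℂ)) := by
  have hc : (0 : ℝ) < 2 / n := by positivity
  obtain ⟨C, hC, h⟩ := decay_exists hc (k + k)
  have hi : Integrable (fun x : R3 => C / (1 + ‖x‖) ^ 6) := by
    have := integrable_pow6.const_mul C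
    simpa [div_eq_mul_inv] using this
  refine hi.mono' ?_ (ae_of_all _ fun x => ?_)
  · refine Continuous.aestronglyMeasurable ?_
    have h1 := continuous_zet a
    have h2 := continuous_zet b
    have h3 : Continuous (ew n) := by unfold ew; fun_prop
    exact ((h1.pow k).mul (h2.pow k)).mul (Complex.continuous_ofReal.comp h3)
  · have h1 : ‖zet a x‖ ≤ 1 + ‖x‖ := (norm_zet_le a x).trans (by linarith)
    have h2 : ‖zet b x‖ ≤ 1 + ‖x‖ := (norm_zet_le b x).trans (by linarith)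
    rw [norm_mul, norm_mul, norm_pow, norm_pow, Complex.norm_real,
      Real.norm_of_nonneg (show 0 ≤ ew n x from (Real.exp_pos _).le)]
    refine le_trans ?_ (h ‖x‖ (norm_nonneg x))
    rw [pow_add, ew]
    gcongr

/-- the basic complex overlap -/
theorem overlap_zz {n : ℕ} (hn : 1 ≤ n) (a b : ℝ) :
    ((cn n ^ 2 : ℝ) : ℂ) * ∫ x, zet a x ^ (n - 1) * zet b x ^ (n - 1) * (ew n x : ℂ) =
      ((2 * ((1 - Real.cos (a - b)) / 2) ^ (n - 1) : ℝ) : ℂ) := by
  rw [norm_integral hn (P := fun x => zet a x ^ (n - 1) * zet b x ^ (n - 1))]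
  · have h := gL_zp a b (n - 1)
    simp only [gL, evx_mul, evx_pow, evx_zp] at h
    rw [h, ← Complex.ofReal_mul]
    congr 1
    have h1 : (Real.pi ^ (3 / 2 : ℝ)) ≠ 0 := by positivity
    have h2 : ((n - 1)! : ℝ) ≠ 0 := by positivity
    field_simp
  · intro t x ht
    rw [zet_smul, zet_smul]
    ring

theorem overlap : OverlapStmt := by
  intro n a b hn
  have hn1 : 1 ≤ n := by omega
  have i1 := integrable_zz hn1 a b (n - 1)
  have i2 := integrable_zz hn1 a (b + Real.pi) (n - 1)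
  have h1 := overlap_zz hn1 a b
  have h2 := overlap_zz hn1 a (b + Real.pi)
  have hcos : Real.cos (a - (b + Real.pi)) = -Real.cos (a - b) := by
    rw [← sub_sub, Real.cos_sub_pi]
  rw [hcos, sub_neg_eq_add] at h2
  have r1 := congrArg Complex.re h1
  have r2 := congrArg Complex.re h2
  have m1 := congrArg Complex.im h1
  have m2 := congrArg Complex.im h2
  rw [Complex.re_ofReal_mul, Complex.ofReal_re, ← RCLike.re_eq_complex_re, ← integral_re i1] at r1
  rw [Complex.re_ofReal_mul, Complex.ofReal_re, ← RCLike.re_eq_complex_re, ← integral_re i2] at r2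
  rw [Complex.im_ofReal_mul, Complex.ofReal_im, ← RCLike.im_eq_complex_im, ← integral_im i1] at m1
  rw [Complex.im_ofReal_mul, Complex.ofReal_im, ← RCLike.im_eq_complex_im, ← integral_im i2] at m2
  have j1 := i1.re
  have j2 := i2.re
  have k1 := i1.im
  have k2 := i2.im
  have pw : ∀ x : R3, ((zet (b + Real.pi) x) ^ (n - 1)).re = ((zet b x) ^ (n - 1)).re ∧
      ((zet (b + Real.pi) x) ^ (n - 1)).im = -((zet b x) ^ (n - 1)).im := by
    intro x
    rw [zet_add_pi, ← map_pow]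
    exact ⟨Complex.conj_re _, Complex.conj_im _⟩
  refine ⟨?_, ?_, ?_⟩
  · have e : ∀ x : R3, ringC n a x * ringC n b x = cn n ^ 2 / 2 *
        (RCLike.re (zet a x ^ (n - 1) * zet b x ^ (n - 1) * (ew n x : ℂ)) +
        RCLike.re (zet a x ^ (n - 1) * zet (b + Real.pi) x ^ (n - 1) * (ew n x : ℂ))) := by
      intro x
      simp only [RCLike.re_eq_complex_re, Complex.mul_re, Complex.mul_im, Complex.ofReal_re,
        Complex.ofReal_im, (pw x).1, (pw x).2,
        ringC, ew_eq]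
      ring
    simp_rw [e]
    rw [integral_const_mul, integral_add j1 j2]
    linear_combination (r1 + r2) / 2
  · have e : ∀ x : R3, ringS n a x * ringS n b x = cn n ^ 2 / 2 *
        (RCLike.re (zet a x ^ (n - 1) * zet (b + Real.pi) x ^ (n - 1) * (ew n x : ℂ)) -
        RCLike.re (zet a x ^ (n - 1) * zet b x ^ (n - 1) * (ew n x : ℂ))) := by
      intro x
      simp only [RCLike.re_eq_complex_re, Complex.mul_re, Complex.mul_im, Complex.ofReal_re,
        Complex.ofReal_im, (pw x).1, (pw x).2,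
        ringS, ew_eq]
      ring
    simp_rw [e]
    rw [integral_const_mul, integral_sub j2 j1]
    linear_combination (r2 - r1) / 2
  · have e : ∀ x : R3, ringC n a x * ringS n b x = cn n ^ 2 / 2 *
        (RCLike.im (zet a x ^ (n - 1) * zet b x ^ (n - 1) * (ew n x : ℂ)) -
        RCLike.im (zet a x ^ (n - 1) * zet (b + Real.pi) x ^ (n - 1) * (ew n x : ℂ))) := by
      intro x
      simp only [RCLike.im_eq_complex_im, Complex.mul_re, Complex.mul_im, Complex.ofReal_re,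
        Complex.ofReal_im, (pw x).1, (pw x).2,
        ringC, ringS, ew_eq]
      ring
    simp_rw [e]
    rw [integral_const_mul, integral_sub k1 k2]
    linear_combination (m1 - m2) / 2

end

end Vale.Agent.P370.H115
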