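import Vale.Agent.P363.R.H10.Sym

/-! **Block R1: the ring orbitals** (top circular hydrogen orbitals `l = J = n - 1` with coplanar
poles `p_a = (cos a, sin a, 0)`, all rings pass through `± e_z`).

`ζ_a · x = x_2 + i (w_a · x)`, `w_a = (- sin a, cos a, 0)`,
`ringC n a x = c_n Re ((ζ_a · x)^(n-1)) e^{-|x|/n}`, `ringS n a x = c_n Im (...) e^{-|x|/n}`,
`c_n = √(2/π) / (n! n^n)`: normalised for `n ≥ 2`.
`DD u w = ∫ x, ∫ y, u x * w y / ‖x - y‖` is the Coulomb form of `P363.R.H10`. -/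

namespace Vale.Agent.P370.H115

open MeasureTheory
open Vale.Agent.P363.Stmt Vale.Agent.P363.R.H10
open scoped Nat

noncomputable section

/-- `ζ_a · x = x_2 + i (- x_0 sin a + x_1 cos a)` -/
def zet (a : ℝ) (x : R3) : ℂ := ⟨x 2, -Real.sin a * x 0 + Real.cos a * x 1⟩

/-- the coordinate along the pole `p_a = (cos a, sin a, 0)` of the ring -/
def pco (a : ℝ) (x : R3) : ℝ := Real.cos a * x 0 + Real.sin a * x 1

/-- the coordinate along `w_a = (- sin a, cos a, 0)` -/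
def wco (a : ℝ) (x : R3) : ℝ := -Real.sin a * x 0 + Real.cos a * x 1

/-- the vector `w_a`, a point of the unit circle of ring `a` on the equator -/
def wvec (a : ℝ) : R3 := !₂[-Real.sin a, Real.cos a, 0]

/-- normalisation constant -/
def cn (n : ℕ) : ℝ := √(2 / Real.pi) / ((n ! : ℝ) * (n : ℝ) ^ n)

/-- the `cos` orbital of the ring with pole angle `a` in the shell `n` -/
def ringC (n : ℕ) (a : ℝ) (x : R3) : ℝ := cn n * ((zet a x) ^ (n - 1)).re * Real.exp (-‖x‖ / n)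

/-- the `sin` orbital of the ring with pole angle `a` in the shell `n` -/
def ringS (n : ℕ) (a : ℝ) (x : R3) : ℝ := cn n * ((zet a x) ^ (n - 1)).im * Real.exp (-‖x‖ / n)

/-- the angle of ring `i` of `m` rings -/
def rang (m i : ℕ) : ℝ := Real.pi * i / m

/-- the orbitals of the `m` rings used -/
def rC (n m i : ℕ) : R3 → ℝ := ringC n (rang m i)

/-- their partners -/
def rS (n m i : ℕ) : R3 → ℝ := ringS n (rang m i)

/-! ### What R1 delivers (helper115; (b): helper253) -/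

/-- (a) exact overlaps, `J = n - 1 ≥ 1` -/
def OverlapStmt : Prop := ∀ (n : ℕ) (a b : ℝ), 2 ≤ n →
  (∫ x, ringC n a x * ringC n b x =
    ((1 + Real.cos (a - b)) / 2) ^ (n - 1) + ((1 - Real.cos (a - b)) / 2) ^ (n - 1)) ∧
  (∫ x, ringS n a x * ringS n b x =
    ((1 + Real.cos (a - b)) / 2) ^ (n - 1) - ((1 - Real.cos (a - b)) / 2) ^ (n - 1)) ∧
  (∫ x, ringC n a x * ringS n b x = 0)

/-- (d1) sup bound -/
def SupStmt : Prop := ∀ (n : ℕ) (a : ℝ) (x : R3), 2 ≤ n →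
  ringC n a x ^ 2 + ringS n a x ^ 2 ≤ 1 / (n : ℝ) ^ 5

/-- (d2) overlap charges: `|C_i C_j|_1 ≤ 3 m² / √n` -/
def L1Stmt : Prop := ∀ (n m i j : ℕ), 2 ≤ n → 2 ≤ m → i < m → j < m → i ≠ j →
  ∫ x, |rC n m i x * rC n m j x| ≤ 3 * (m : ℝ) ^ 2 / √n

/-- (c) all the Coulomb integrals which are not charge-charge are small, and the charge-charge ones
are `≤ 3 n^{-5/3}` -/
def SmallStmt : Prop := ∀ (n m a c b d : ℕ), 2 ≤ n → 2 ≤ m → a < m → b < m → c < m → d < m →
  (¬ (a = c ∧ b = d) →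
    |DD (fun x => rC n m a x * rC n m c x) (fun x => rC n m b x * rC n m d x)| ≤
      15 * (m : ℝ) ^ 4 * (n : ℝ) ^ (-(13 / 6) : ℝ)) ∧
  |DD (fun x => rC n m a x * rC n m a x) (fun x => rC n m b x * rC n m b x)| ≤
    3 * (n : ℝ) ^ (-(5 / 3) : ℝ)

/-- (b) the charge matrix is strictly positive (constant `c > 0`, exponent `K` absolute; helper253:
please replace by your explicit version) -/
def ChargeStmt : Prop := ∃ (c : ℝ) (K : ℕ), 0 < c ∧ ∀ (n m : ℕ), 2 ≤ m → m ^ K ≤ n →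
  ∀ v : ℕ → ℝ, c / (m * (n : ℝ) ^ 2) * ∑ i ∈ Finset.range m, v i ^ 2 ≤
    ∑ i ∈ Finset.range m, ∑ j ∈ Finset.range m,
      DD (fun x => rC n m i x ^ 2) (fun x => rC n m j x ^ 2) * v i * v j

/-- (e) rotation invariance: the charge matrix is circulant -/
def CircStmt : Prop := ∀ (n : ℕ) (a b s : ℝ), 2 ≤ n →
  DD (fun x => ringC n (a + s) x ^ 2) (fun x => ringC n (b + s) x ^ 2) =
    DD (fun x => ringC n a x ^ 2) (fun x => ringC n b x ^ 2)

end

end Vale.Agent.P370.H115
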