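import Vale.Agent.P370.H115.L1
import Vale.Agent.P370.H253.Coul3

/-! All the Coulomb integrals of the rings which are not charge-charge integrals are small
(`SmallStmt`), rotation invariance (`CircStmt`). -/

namespace Vale.Agent.P370.H115

open MeasureTheory Set
open Vale.Agent.P363.Stmt Vale.Agent.P363.R.H10
open scoped Nat

noncomputable section

lemma nice253 {f : R3 → ℝ} (hf : Nice f) : H253.Nice f := by
  refine ⟨hf.integrable, ?_⟩
  obtain ⟨C, hC, hb⟩ := hf.bd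
  refine ⟨C, fun x => (hb x).trans (div_le_self hC (one_le_pow₀ ?_))⟩
  linarith [norm_nonneg x]

lemma DD_eq_coul {f g : R3 → ℝ} (hf : Nice f) (hg : Nice g) : DD f g = H253.coul f g :=
  (H253.coul_eq_iterated (nice253 hf) (nice253 hg)).symm

/-- the elementary bound of the Coulomb form: `L¹` norm times potential -/
lemma DD_abs_le {f g : R3 → ℝ} (hf : Nice f) (hg : Nice g) {M A B R : ℝ} (hM : ∀ y, |g y| ≤ M)
    (hA : ∫ x, |f x| ≤ A) (hB : ∫ x, |g x| ≤ B) (hR : 0 < R) :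
    |DD f g| ≤ A * (2 * Real.pi * M * R ^ 2 + B / R) := by
  rw [DD_eq_coul hf hg]
  refine (H253.coul_abs_le (nice253 hf) (nice253 hg) hM hR).trans ?_
  have h1 : 0 ≤ ∫ y, |g y| := integral_nonneg fun _ => abs_nonneg _
  have h2 : 0 ≤ ∫ x, |f x| := integral_nonneg fun _ => abs_nonneg _
  have hM0 : 0 ≤ M := (abs_nonneg _).trans (hM 0)
  have hA0 : 0 ≤ A := h2.trans hA
  gcongr

lemma l1_diag {n : ℕ} (hn : 2 ≤ n) (a : ℝ) : ∫ x, |ringC n a x * ringC n a x| ≤ 1 := by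
  have h := (overlap n a a hn).1
  have e : ∀ x, |ringC n a x * ringC n a x| = ringC n a x * ringC n a x := fun x =>
    abs_of_nonneg (mul_self_nonneg _)
  simp_rw [e]
  rw [h, sub_self, Real.cos_zero]
  have : n - 1 ≠ 0 := by omega
  simp [this]

lemma nice_prod {n : ℕ} (hn : 2 ≤ n) (a b : ℝ) : Nice (fun x => ringC n a x * ringC n b x) :=
  nice_mul (nice_ringC (by omega) a) (nice_ringC (by omega) b)

/-- potential of a diagonal charge, through the split at `R = n^{5/3}` -/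
lemma diag_bound {n : ℕ} (hn : 2 ≤ n) (a : ℝ) {f : R3 → ℝ} (hf : Nice f) {A : ℝ}
    (hA : ∫ x, |f x| ≤ A) :
    |DD f (fun x => ringC n a x * ringC n a x)| ≤ A * (3 * (n : ℝ) ^ (-(5 / 3) : ℝ)) := by
  have hn0 : (0 : ℝ) < n := by
    have : 0 < n := by omega
    positivity
  have hR : 0 < (n : ℝ) ^ (5 / 3 : ℝ) := by positivity
  have h := DD_abs_le hf (nice_prod hn a a) (fun y => prod_bound n a a y hn) hA (l1_diag hn a) hR
  have hA0 : 0 ≤ A := (integral_nonneg fun _ => abs_nonneg _).trans hA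
  refine h.trans ?_
  gcongr
  have e1 : (1 : ℝ) / (n : ℝ) ^ (5 / 3 : ℝ) = (n : ℝ) ^ (-(5 / 3) : ℝ) := by
    rw [Real.rpow_neg hn0.le, one_div]
  have e2 : 1 / (4 * (n : ℝ) ^ 5) * ((n : ℝ) ^ (5 / 3 : ℝ)) ^ 2 = 1 / 4 * (n : ℝ) ^ (-(5 / 3) : ℝ) := by
    have h5 : ((n : ℝ) ^ 5)⁻¹ = (n : ℝ) ^ (-5 : ℝ) := by
      rw [Real.rpow_neg hn0.le]; norm_cast
    have h6 : ((n : ℝ) ^ (5 / 3 : ℝ)) ^ 2 = (n : ℝ) ^ (10 / 3 : ℝ) := by
      rw [← Real.rpow_natCast, ← Real.rpow_mul hn0.le]; norm_num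
    rw [one_div, mul_inv, h5, h6, mul_assoc, ← Real.rpow_add hn0]
    norm_num
  rw [e1, mul_assoc, e2]
  have hpi := Real.pi_lt_four
  have h3 : 0 < (n : ℝ) ^ (-(5 / 3) : ℝ) := by positivity
  nlinarith

/-- potential of an overlap charge, through the split at `R = n^{3/2}` -/
lemma off_bound {n m i j : ℕ} (hn : 2 ≤ n) (hm : 2 ≤ m) (hi : i < m) (hj : j < m) (hij : i ≠ j)
    {f : R3 → ℝ} (hf : Nice f) {A : ℝ} (hA : ∫ x, |f x| ≤ A) :
    |DD f (fun x => rC n m i x * rC n m j x)| ≤ A * (5 * (m : ℝ) ^ 2 / (n : ℝ) ^ 2) := by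
  have hn0 : (0 : ℝ) < n := by
    have : 0 < n := by omega
    positivity
  have hs : 0 < √(n : ℝ) := by positivity
  have hs2 : √(n : ℝ) ^ 2 = n := Real.sq_sqrt hn0.le
  have hR : 0 < (n : ℝ) * √n := by positivity
  have h := DD_abs_le hf (nice_prod hn (rang m i) (rang m j))
    (fun y => prod_bound n (rang m i) (rang m j) y hn) hA (l1_stmt n m i j hn hm hi hj hij) hR
  have hA0 : 0 ≤ A := (integral_nonneg fun _ => abs_nonneg _).trans hA
  refine h.trans ?_
  gcongr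
  have e1 : 1 / (4 * (n : ℝ) ^ 5) * ((n : ℝ) * √n) ^ 2 = 1 / 4 / (n : ℝ) ^ 2 := by
    rw [mul_pow, hs2]; field_simp
  have e2 : 3 * (m : ℝ) ^ 2 / √n / ((n : ℝ) * √n) = 3 * (m : ℝ) ^ 2 / (n : ℝ) ^ 2 := by
    rw [div_div, show √(n : ℝ) * ((n : ℝ) * √n) = (n : ℝ) * √(n : ℝ) ^ 2 by ring, hs2]
    ring
  rw [e2, mul_assoc, e1, ← mul_div_assoc, ← add_div]
  have hpi := Real.pi_lt_four
  have hm2 : (2 : ℝ) ≤ m := by exact_mod_cast hm
  gcongr
  nlinarith

theorem small_stmt : SmallStmt := by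
  intro n m a c b d hn hm ha hb hc hd
  have hn0 : (0 : ℝ) < n := by
    have : 0 < n := by omega
    positivity
  have hn1 : (1 : ℝ) ≤ n := by exact_mod_cast (by omega : 1 ≤ n)
  have hm0 : (0 : ℝ) < m := by positivity
  have hm1 : (1 : ℝ) ≤ m := by exact_mod_cast (by omega : 1 ≤ m)
  have hs : 0 < √(n : ℝ) := by positivity
  have hsq : √(n : ℝ) = (n : ℝ) ^ (1 / 2 : ℝ) := Real.sqrt_eq_rpow _
  have mixed : 3 * (m : ℝ) ^ 2 / √n * (3 * (n : ℝ) ^ (-(5 / 3) : ℝ)) ≤
      15 * (m : ℝ) ^ 4 * (n : ℝ) ^ (-(13 / 6) : ℝ) := by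
    have e : 3 * (m : ℝ) ^ 2 / √n * (3 * (n : ℝ) ^ (-(5 / 3) : ℝ)) =
        9 * (m : ℝ) ^ 2 * (n : ℝ) ^ (-(13 / 6) : ℝ) := by
      rw [hsq, div_eq_mul_inv, ← Real.rpow_neg hn0.le]
      have : (n : ℝ) ^ (-(13 / 6) : ℝ) = (n : ℝ) ^ (-(1 / 2) : ℝ) * (n : ℝ) ^ (-(5 / 3) : ℝ) := by
        rw [← Real.rpow_add hn0]; norm_num
      rw [this]; ring
    rw [e]
    have h2 : (m : ℝ) ^ 2 ≤ (m : ℝ) ^ 4 := pow_le_pow_right₀ hm1 (by norm_num)
    have h3 : 0 < (n : ℝ) ^ (-(13 / 6) : ℝ) := by positivity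
    nlinarith [mul_nonneg (pow_nonneg hm0.le 4) h3.le, mul_le_mul_of_nonneg_right h2 h3.le]
  constructor
  · intro hne
    by_cases h1 : a = c
    · subst h1
      have h2 : b ≠ d := fun h => hne ⟨rfl, h⟩
      have e1 := diag_bound hn (rang m a) (nice_prod hn (rang m b) (rang m d))
        (l1_stmt n m b d hn hm hb hd h2)
      have e2 : DD (fun x => rC n m a x * rC n m a x) (fun x => rC n m b x * rC n m d x) =
          DD (fun x => rC n m b x * rC n m d x) (fun x => rC n m a x * rC n m a x) :=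
        DD_comm (nice_prod hn _ _) (nice_prod hn _ _)
      rw [e2]
      exact e1.trans mixed
    · by_cases h2 : b = d
      · subst h2
        have e1 := diag_bound hn (rang m b) (nice_prod hn (rang m a) (rang m c))
          (l1_stmt n m a c hn hm ha hc h1)
        exact e1.trans mixed
      · have e1 := off_bound hn hm hb hd h2 (nice_prod hn (rang m a) (rang m c))
          (l1_stmt n m a c hn hm ha hc h1)
        refine e1.trans ?_
        have e3 : 3 * (m : ℝ) ^ 2 / √n * (5 * (m : ℝ) ^ 2 / (n : ℝ) ^ 2) =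
            15 * (m : ℝ) ^ 4 * (n : ℝ) ^ (-(5 / 2) : ℝ) := by
          rw [hsq]
          have : (n : ℝ) ^ (-(5 / 2) : ℝ) = ((n : ℝ) ^ (1 / 2 : ℝ))⁻¹ * ((n : ℝ) ^ 2)⁻¹ := by
            rw [← Real.rpow_natCast, ← Real.rpow_neg hn0.le, ← Real.rpow_neg hn0.le,
              ← Real.rpow_add hn0]
            norm_num
          rw [this]
          field_simp
          ring
        rw [e3]
        have h7 : (n : ℝ) ^ (-(5 / 2) : ℝ) ≤ (n : ℝ) ^ (-(13 / 6) : ℝ) :=
          Real.rpow_le_rpow_of_exponent_le hn1 (by norm_num)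
        exact mul_le_mul_of_nonneg_left h7 (by positivity)
  · have e1 := diag_bound hn (rang m b) (nice_prod hn (rang m a) (rang m a)) (l1_diag hn _)
    rw [one_mul] at e1
    exact e1

/-- both pairs off-diagonal: the better bound `15 m⁴ n^{-5/2}` -/
theorem small_off {n m a c b d : ℕ} (hn : 2 ≤ n) (hm : 2 ≤ m) (ha : a < m) (hb : b < m) (hc : c < m)
    (hd : d < m) (hac : a ≠ c) (hbd : b ≠ d) :
    |DD (fun x => rC n m a x * rC n m c x) (fun x => rC n m b x * rC n m d x)| ≤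
      3 * (m : ℝ) ^ 2 / √n * (5 * (m : ℝ) ^ 2 / (n : ℝ) ^ 2) :=
  off_bound hn hm hb hd hbd (nice_prod hn (rang m a) (rang m c)) (l1_stmt n m a c hn hm ha hc hac)

/-! ### rotations about the `z` axis -/

/-- the rotation by the angle `s` about the `z` axis -/
def rotMat (s : ℝ) : R3 →ₗ[ℝ] R3 where
  toFun x := !₂[Real.cos s * x 0 - Real.sin s * x 1, Real.sin s * x 0 + Real.cos s * x 1, x 2]
  map_add' x y := by
    ext i; fin_cases i <;> simp <;> ring
  map_smul' c x := by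
    ext i; fin_cases i <;> simp <;> ring

lemma rotMat_inv (s : ℝ) (x : R3) : rotMat (-s) (rotMat s x) = x := by
  have h := Real.sin_sq_add_cos_sq s
  ext i
  fin_cases i
  · simp [rotMat]
    linear_combination (x 0) * h
  · simp [rotMat]
    linear_combination (x 1) * h
  · simp [rotMat]

/-- the rotation as an isometry -/
def rotI (s : ℝ) : R3 ≃ₗᵢ[ℝ] R3 where
  toLinearEquiv := LinearEquiv.ofLinear (rotMat s) (rotMat (-s))
    (by ext1 x; simpa using rotMat_inv (-s) x) (by ext1 x; simpa using rotMat_inv s x)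
  norm_map' x := by
    have h : ‖rotMat s x‖ ^ 2 = ‖x‖ ^ 2 := by
      rw [norm_sq_eq_sum, norm_sq_eq_sum]
      simp [rotMat]
      have h := Real.sin_sq_add_cos_sq s
      linear_combination (x 0 ^ 2 + x 1 ^ 2) * h
    have h2 := abs_eq_abs.2 ((sq_eq_sq_iff_eq_or_eq_neg).1 h)
    rw [abs_of_nonneg (norm_nonneg _), abs_of_nonneg (norm_nonneg _)] at h2
    exact h2

lemma rotI_apply (s : ℝ) (x : R3) : rotI s x =
    !₂[Real.cos s * x 0 - Real.sin s * x 1, Real.sin s * x 0 + Real.cos s * x 1, x 2] := rfl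

lemma zet_rot (a s : ℝ) (x : R3) : zet (a + s) (rotI s x) = zet a x := by
  have h := Real.sin_sq_add_cos_sq s
  rw [rotI_apply]
  apply Complex.ext
  · simp [zet]
  · simp only [zet, Real.sin_add, Real.cos_add]
    simp
    linear_combination (Real.cos a * x 1 - Real.sin a * x 0) * h

lemma ringC_rot (n : ℕ) (a s : ℝ) (x : R3) : ringC n (a + s) (rotI s x) = ringC n a x := by
  rw [ringC, ringC, zet_rot, LinearIsometryEquiv.norm_map]

lemma ringS_rot (n : ℕ) (a s : ℝ) (x : R3) : ringS n (a + s) (rotI s x) = ringS n a x := by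
  rw [ringS, ringS, zet_rot, LinearIsometryEquiv.norm_map]

theorem circ_stmt : CircStmt := by
  intro n a b s _
  have h := DD_isom (rotI s) (fun x => ringC n (a + s) x ^ 2) (fun x => ringC n (b + s) x ^ 2)
  simp only [ringC_rot] at h
  exact h.symm

end

end Vale.Agent.P370.H115
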