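import Vale.Agent.P370.H115.Gauss

/-! Gaussian integrals of products of null forms and of the quadratic forms `z² + w ρ²`. -/

namespace Vale.Agent.P370.H115

open MeasureTheory Set MvPolynomial
open Vale.Agent.P363.Stmt Vale.Agent.P363.R.H10 Vale.Agent.P363.B5
open scoped Nat

noncomputable section

/-- the linear form `ζ_a` as a polynomial -/
def zp (a : ℝ) : Pol := X 2 + C (Complex.I * (-Real.sin a : ℝ)) * X 0 + C (Complex.I * (Real.cos a : ℝ)) * X 1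

/-- the derivation along `ζ_a` -/
def Da (a : ℝ) : Derivation ℂ Pol Pol :=
  pderiv 2 + (Complex.I * (-Real.sin a : ℝ)) • pderiv 0 + (Complex.I * (Real.cos a : ℝ)) • pderiv 1

@[simp] lemma evx_zp (a : ℝ) (x : R3) : evx x (zp a) = zet a x := by
  simp only [zp, evx_add, evx_mul, evx_C, evx_X, zet]
  apply Complex.ext <;> simp [-Complex.ofReal_sin, -Complex.ofReal_cos]

lemma Da_zp (a b : ℝ) : Da a (zp b) = C (((1 - Real.cos (a - b) : ℝ) : ℂ)) := by
  have h01 : (0 : Fin 3) ≠ 1 := by decide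
  have h02 : (0 : Fin 3) ≠ 2 := by decide
  have h12 : (1 : Fin 3) ≠ 2 := by decide
  simp only [Da, zp, Derivation.add_apply, Derivation.smul_apply, map_add, Derivation.leibniz,
    pderiv_X_self, pderiv_X_of_ne h01, pderiv_X_of_ne h02, pderiv_X_of_ne h12,
    pderiv_X_of_ne h01.symm, pderiv_X_of_ne h02.symm, pderiv_X_of_ne h12.symm, pderiv_C,
    smul_eq_mul, mul_zero, mul_one, add_zero, zero_add, smul_zero]
  rw [smul_eq_C_mul, smul_eq_C_mul, mul_one, mul_one, ← map_mul, ← map_mul, ← C_1, ← map_add,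
    ← map_add]
  congr 1
  rw [Real.cos_sub]
  push_cast
  have := Complex.I_mul_I
  linear_combination (Complex.sin a * Complex.sin b + Complex.cos a * Complex.cos b) * this

lemma gL_zp_mul (a : ℝ) (F : Pol) : gL (zp a * F) = (1 / 2) * gL (Da a F) := by
  have e1 : zp a * F = X 2 * F + C (Complex.I * (-Real.sin a : ℝ)) * (X 0 * F) +
      C (Complex.I * (Real.cos a : ℝ)) * (X 1 * F) := by rw [zp]; ring
  have e2 : Da a F = pderiv 2 F + C (Complex.I * (-Real.sin a : ℝ)) * (pderiv 0 F) +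
      C (Complex.I * (Real.cos a : ℝ)) * (pderiv 1 F) := by
    simp only [Da, Derivation.add_apply, Derivation.smul_apply, smul_eq_C_mul]
  rw [e1, e2, gL_add, gL_add, gL_C_mul, gL_C_mul, gL_X_mul, gL_X_mul, gL_X_mul, gL_add, gL_add,
    gL_C_mul, gL_C_mul]
  ring

lemma gL_zp_succ (a b : ℝ) (k : ℕ) : gL (zp a ^ (k + 1) * zp b ^ (k + 1)) =
    ((k + 1 : ℕ) : ℂ) * (((1 - Real.cos (a - b)) / 2 : ℝ) : ℂ) * gL (zp a ^ k * zp b ^ k) := by
  have e1 : zp a ^ (k + 1) * zp b ^ (k + 1) = zp a * (zp a ^ k * zp b ^ (k + 1)) := by ring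
  rw [e1, gL_zp_mul, Derivation.leibniz, Derivation.leibniz_pow, Derivation.leibniz_pow, Da_zp,
    Da_zp]
  have e2 : (1 - Real.cos (a - a) : ℝ) = 0 := by simp
  rw [e2]
  simp only [Complex.ofReal_zero, C_0, mul_zero, smul_zero, add_zero, smul_eq_mul,
    Nat.add_sub_cancel]
  have e3 : zp a ^ k * (k + 1) • (zp b ^ k * C (((1 - Real.cos (a - b) : ℝ) : ℂ))) =
      C (((k + 1 : ℕ) : ℂ) * ((1 - Real.cos (a - b) : ℝ) : ℂ)) * (zp a ^ k * zp b ^ k) := by
    rw [nsmul_eq_mul, map_mul]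
    have : (C (((k + 1 : ℕ) : ℂ)) : Pol) = ((k + 1 : ℕ) : Pol) := by simp
    rw [this]
    ring
  rw [e3, gL_C_mul]
  push_cast
  ring

/-- **Wick's formula for null vectors** -/
theorem gL_zp (a b : ℝ) (k : ℕ) : gL (zp a ^ k * zp b ^ k) =
    (((Real.pi ^ (3 / 2 : ℝ)) * (k ! : ℝ) * ((1 - Real.cos (a - b)) / 2) ^ k : ℝ) : ℂ) := by
  induction k with
  | zero => simp only [pow_zero, mul_one, gL_one, Nat.factorial_zero, Nat.cast_one]
  | succ k ih =>
    rw [gL_zp_succ, ih, Nat.factorial_succ]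
    push_cast
    ring

/-- `ρ² = x_0² + x_1²` -/
def rp : Pol := X 0 ^ 2 + X 1 ^ 2

lemma gL_rp_succ (k : ℕ) (Q : Pol) (h0 : pderiv 0 Q = 0) (h1 : pderiv 1 Q = 0) :
    gL (rp ^ (k + 1) * Q) = ((k + 1 : ℕ) : ℂ) * gL (rp ^ k * Q) := by
  have e1 : rp ^ (k + 1) * Q = X 0 * (X 0 * (rp ^ k * Q)) + X 1 * (X 1 * (rp ^ k * Q)) := by
    rw [pow_succ]; nth_rewrite 2 [rp]; ring
  have h01 : (0 : Fin 3) ≠ 1 := by decide
  have d0 : pderiv 0 rp = C 2 * X 0 := by
    simp only [rp, map_add, Derivation.leibniz_pow, pderiv_X_self, pderiv_X_of_ne h01.symm]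
    have : (C (2 : ℂ) : Pol) = 2 := map_ofNat C 2
    rw [this]
    simp
  have d1 : pderiv 1 rp = C 2 * X 1 := by
    simp only [rp, map_add, Derivation.leibniz_pow, pderiv_X_self, pderiv_X_of_ne h01]
    have : (C (2 : ℂ) : Pol) = 2 := map_ofNat C 2
    rw [this]
    simp
  have p0 : pderiv 0 (X 0 * (rp ^ k * Q)) =
      rp ^ k * Q + C (2 * (k : ℂ)) * (X 0 * X 0 * (rp ^ (k - 1) * Q)) := by
    simp only [Derivation.leibniz, pderiv_X_self, h0, Derivation.leibniz_pow, d0, smul_eq_mul,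
      nsmul_eq_mul, map_mul]
    have : (C ((k : ℂ)) : Pol) = (k : Pol) := by simp
    rw [this]
    ring
  have p1 : pderiv 1 (X 1 * (rp ^ k * Q)) =
      rp ^ k * Q + C (2 * (k : ℂ)) * (X 1 * X 1 * (rp ^ (k - 1) * Q)) := by
    simp only [Derivation.leibniz, pderiv_X_self, h1, Derivation.leibniz_pow, d1, smul_eq_mul,
      nsmul_eq_mul, map_mul]
    have : (C ((k : ℂ)) : Pol) = (k : Pol) := by simp
    rw [this]
    ring
  rw [e1, gL_add, gL_X_mul, gL_X_mul, p0, p1, gL_add, gL_add, gL_C_mul, gL_C_mul]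
  have e2 : (k : ℂ) * (gL (X 0 * X 0 * (rp ^ (k - 1) * Q)) + gL (X 1 * X 1 * (rp ^ (k - 1) * Q))) =
      (k : ℂ) * gL (rp ^ k * Q) := by
    rcases Nat.eq_zero_or_pos k with hk | hk
    · simp [hk]
    · congr 1
      rw [← gL_add]
      congr 1
      obtain ⟨j, rfl⟩ : ∃ j, k = j + 1 := ⟨k - 1, by omega⟩
      rw [Nat.add_sub_cancel, pow_succ]
      nth_rewrite 4 [rp]
      ring
  push_cast
  linear_combination e2

lemma gL_rp (k : ℕ) (Q : Pol) (h0 : pderiv 0 Q = 0) (h1 : pderiv 1 Q = 0) :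
    gL (rp ^ k * Q) = (k ! : ℂ) * gL Q := by
  induction k with
  | zero => simp
  | succ k ih =>
    rw [gL_rp_succ k Q h0 h1, ih, Nat.factorial_succ]
    push_cast
    ring

/-- `b l = C(2l,l)/4^l` -/
def bl (l : ℕ) : ℝ := (Nat.centralBinom l : ℝ) / 4 ^ l

lemma bl_zero : bl 0 = 1 := by simp [bl]

lemma bl_succ (l : ℕ) : ((l : ℝ) + 1) * bl (l + 1) = (l + 1 / 2) * bl l := by
  have h := Nat.succ_mul_centralBinom_succ l
  have h2 : ((l : ℝ) + 1) * (Nat.centralBinom (l + 1) : ℝ) = 2 * (2 * l + 1) * Nat.centralBinom l := by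
    exact_mod_cast h
  simp only [bl, pow_succ]
  have h4 : (4 : ℝ) ^ l ≠ 0 := by positivity
  have e1 : ((l : ℝ) + 1) * ((Nat.centralBinom (l + 1) : ℝ) / (4 ^ l * 4)) =
      (((l : ℝ) + 1) * (Nat.centralBinom (l + 1) : ℝ)) / (4 ^ l * 4) := by ring
  rw [e1, h2]
  field_simp
  ring

lemma gL_z (l : ℕ) : gL (X 2 ^ (2 * l)) =
    (((Real.pi ^ (3 / 2 : ℝ)) * (l ! : ℝ) * bl l : ℝ) : ℂ) := by
  induction l with
  | zero => simp only [Nat.mul_zero, pow_zero, gL_one, Nat.factorial_zero, Nat.cast_one, bl_zero, mul_one]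
  | succ l ih =>
    have e1 : (X 2 ^ (2 * (l + 1)) : Pol) = X 2 * X 2 ^ (2 * l + 1) := by ring
    have e2 : pderiv 2 (X 2 ^ (2 * l + 1) : Pol) = C ((2 * l + 1 : ℕ) : ℂ) * X 2 ^ (2 * l) := by
      rw [Derivation.leibniz_pow, pderiv_X_self]
      simp only [smul_eq_mul, mul_one, Nat.add_sub_cancel, nsmul_eq_mul]
      have : (C (2 : ℂ) : Pol) = 2 := map_ofNat C 2
      simp [this]
    rw [e1, gL_X_mul, e2, gL_C_mul, ih, ← Complex.ofReal_natCast]
    have h3 : (1 / 2 : ℂ) = ((1 / 2 : ℝ) : ℂ) := by push_cast; ring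
    rw [h3, ← Complex.ofReal_mul, ← Complex.ofReal_mul]
    congr 1
    rw [Nat.factorial_succ]
    have := bl_succ l
    push_cast
    linear_combination (-(Real.pi ^ (3 / 2 : ℝ)) * (l ! : ℝ)) * this

lemma gL_rp_z (k l : ℕ) : gL (rp ^ k * X 2 ^ (2 * l)) =
    (((Real.pi ^ (3 / 2 : ℝ)) * (k ! : ℝ) * (l ! : ℝ) * bl l : ℝ) : ℂ) := by
  have h02 : (2 : Fin 3) ≠ 0 := by decide
  have h12 : (2 : Fin 3) ≠ 1 := by decide
  rw [gL_rp, gL_z]
  · push_cast; ring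
  · rw [Derivation.leibniz_pow, pderiv_X_of_ne h02]; simp
  · rw [Derivation.leibniz_pow, pderiv_X_of_ne h12]; simp

/-- the Gaussian integral of `(z² + w ρ²)^J` -/
theorem gL_quad (w : ℝ) (J : ℕ) : gL ((X 2 ^ 2 + C (w : ℂ) * rp) ^ J) =
    (((Real.pi ^ (3 / 2 : ℝ)) * (J ! : ℝ) * ∑ k ∈ Finset.range (J + 1), w ^ k * bl (J - k) : ℝ) : ℂ) := by
  rw [add_comm (X 2 ^ 2 : Pol), add_pow, gL_sum]
  have e1 : ∀ k ∈ Finset.range (J + 1),
      gL ((C (w : ℂ) * rp) ^ k * (X 2 ^ 2) ^ (J - k) * (J.choose k : Pol)) =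
      (((Real.pi ^ (3 / 2 : ℝ)) * (J ! : ℝ) * (w ^ k * bl (J - k)) : ℝ) : ℂ) := by
    intro k hk
    have hkJ : k ≤ J := by simpa [Nat.lt_succ_iff] using hk
    have e2 : (C (w : ℂ) * rp) ^ k * (X 2 ^ 2) ^ (J - k) * (J.choose k : Pol) =
        C (((w ^ k * (J.choose k : ℝ) : ℝ)) : ℂ) * (rp ^ k * X 2 ^ (2 * (J - k))) := by
      have : (C (((w ^ k * (J.choose k : ℝ) : ℝ)) : ℂ) : Pol) = C (w : ℂ) ^ k * (J.choose k : Pol) := by
        push_cast
        rw [map_mul, map_pow]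
        simp
      rw [this, mul_pow, ← pow_mul]
      ring
    rw [e2, gL_C_mul, gL_rp_z, ← Complex.ofReal_mul]
    congr 1
    have h := Nat.choose_mul_factorial_mul_factorial hkJ
    have h' : (J.choose k : ℝ) * k ! * (J - k)! = J ! := by exact_mod_cast h
    rw [← h']
    ring
  rw [Finset.sum_congr rfl e1, ← Complex.ofReal_sum, ← Finset.mul_sum]

end

end Vale.Agent.P370.H115
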